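import Mathlib
import Vale.Agent.Lib.P089.Defs

/-!
# P089, Part A: words in involutive colours

A word is a list of colours; it is reduced if no two consecutive colours are equal.  `Eqv u w` says that
`u` and `w` are equal in the free product of the groups of order two generated by the colours.
-/

namespace P089.A

variable {S : Type}

open Classical in
/-- put a colour in front of a reduced word -/
noncomputable def push (s : S) (w : List S) : List S :=
  if w.head? = some s then w.tail else s :: w

/-- reduction of a word -/
noncomputable def red (w : List S) : List S := w.foldr push []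

/-- equality in the free product of the groups of order two -/
def Eqv (u w : List S) : Prop := red u = red w

private theorem push_same (s : S) (w : List S) : push s (s :: w) = w := by
  unfold push
  rw [if_pos (by rfl)]
  rfl

private theorem push_diff {s : S} {w : List S} (h : ¬ w.head? = some s) :
    push s w = s :: w := by
  unfold push
  rw [if_neg h]

private theorem red_cons_iff {s : S} {w : List S} :
    Red (s :: w) ↔ (¬ w.head? = some s) ∧ Red w := by
  unfold Red
  cases w with
  | nil => simp
  | cons t w =>
    rw [List.isChain_cons_cons]
    constructor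
    · rintro ⟨h1, h2⟩
      refine ⟨fun h => ?_, h2⟩
      rw [List.head?_cons] at h
      exact h1 (Option.some.inj h).symm
    · rintro ⟨h1, h2⟩
      refine ⟨fun h => h1 ?_, h2⟩
      rw [List.head?_cons, h]

private theorem eq_cons_of_head {s : S} {w : List S} (h : w.head? = some s) :
    ∃ t, w = s :: t := by
  cases w with
  | nil => exact absurd h (by simp)
  | cons a t =>
    rw [List.head?_cons] at h
    exact ⟨t, by rw [Option.some.inj h]⟩

theorem red_push {s : S} {w : List S} (h : Red w) : Red (push s w) := by
  by_cases hs : w.head? = some s
  · obtain ⟨t, ht⟩ := eq_cons_of_head hs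
    rw [ht] at h ⊢
    rw [push_same]
    exact (red_cons_iff.1 h).2
  · rw [push_diff hs]
    exact red_cons_iff.2 ⟨hs, h⟩

theorem push_push {s : S} {w : List S} (h : Red w) : push s (push s w) = w := by
  by_cases hs : w.head? = some s
  · obtain ⟨t, ht⟩ := eq_cons_of_head hs
    rw [ht] at h ⊢
    rw [push_same]
    exact push_diff (red_cons_iff.1 h).1
  · rw [push_diff hs, push_same]

private theorem red_foldr {r : List S} (hr : Red r) (w : List S) : Red (w.foldr push r) := by
  induction w with
  | nil => exact hr
  | cons s w ih => exact red_push ih

private theorem red_nil : Red ([] : List S) := List.isChain_nil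

theorem red_red (w : List S) : Red (red w) := red_foldr red_nil w

private theorem red_cons (s : S) (w : List S) : red (s :: w) = push s (red w) := rfl

theorem red_eq_self {w : List S} (h : Red w) : red w = w := by
  induction w with
  | nil => rfl
  | cons s w ih =>
    obtain ⟨h1, h2⟩ := red_cons_iff.1 h
    rw [red_cons, ih h2, push_diff h1]

theorem length_red_le (w : List S) : (red w).length ≤ w.length := by
  induction w with
  | nil => exact le_rfl
  | cons s w ih =>
    rw [red_cons, List.length_cons]
    by_cases hs : (red w).head? = some s
    · obtain ⟨t, ht⟩ := eq_cons_of_head hs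
      rw [ht] at ih ⊢
      rw [push_same]
      rw [List.length_cons] at ih
      omega
    · rw [push_diff hs, List.length_cons]
      omega

theorem Eqv.refl (w : List S) : Eqv w w := rfl

theorem Eqv.symm {u w : List S} (h : Eqv u w) : Eqv w u := Eq.symm h

theorem Eqv.trans {u v w : List S} (h : Eqv u v) (h' : Eqv v w) : Eqv u w := Eq.trans h h'

theorem eqv_red (w : List S) : Eqv (red w) w := red_eq_self (red_red w)

private theorem foldr_red {r : List S} (hr : Red r) (w : List S) :
    w.foldr push r = (red w).foldr push r := by
  induction w with
  | nil => rfl
  | cons s w ih =>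
    rw [red_cons]
    show push s (w.foldr push r) = _
    rw [ih]
    by_cases hs : (red w).head? = some s
    · obtain ⟨t, ht⟩ := eq_cons_of_head hs
      rw [ht, push_same]
      exact push_push (red_foldr hr t)
    · rw [push_diff hs]
      rfl

private theorem red_append (u v : List S) : red (u ++ v) = (red u).foldr push (red v) := by
  have h1 : red (u ++ v) = u.foldr push (red v) := by
    unfold red
    rw [List.foldr_append]
  rw [h1]
  exact foldr_red (red_red v) u

/-- `foldr push r w` depends only on `red w` for `r` reduced (`push s (push s r) = r`). -/
theorem Eqv.append {u u' v v' : List S} (h : Eqv u u') (h' : Eqv v v') : Eqv (u ++ v) (u' ++ v') := by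
  unfold Eqv at h h' ⊢
  rw [red_append, red_append, h, h']

theorem append_reverse_eqv (w : List S) : Eqv (w ++ w.reverse) [] := by
  induction w with
  | nil => exact rfl
  | cons s w ih =>
    have h1 : (s :: w) ++ (s :: w).reverse = [s] ++ ((w ++ w.reverse) ++ [s]) := by
      simp
    rw [h1]
    have h2 : Eqv ([s] ++ ((w ++ w.reverse) ++ [s])) ([s] ++ ([] ++ [s])) :=
      Eqv.append (Eqv.refl _) (Eqv.append ih (Eqv.refl _))
    refine h2.trans ?_
    have h3 : red ([s] ++ ([] ++ [s])) = push s (push s []) := rfl
    exact h3.trans (push_push red_nil)

theorem reverse_append_eqv (w : List S) : Eqv (w.reverse ++ w) [] := by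
  have h := append_reverse_eqv w.reverse
  rwa [List.reverse_reverse] at h

theorem eqv_of_append_reverse {u w : List S} (h : Eqv (u ++ w.reverse) []) : Eqv u w := by
  have h1 : Eqv (u ++ (w.reverse ++ w)) (u ++ []) :=
    Eqv.append (Eqv.refl _) (reverse_append_eqv w)
  have h2 : Eqv ((u ++ w.reverse) ++ w) ([] ++ w) := Eqv.append h (Eqv.refl _)
  rw [List.append_nil] at h1
  rw [List.nil_append, List.append_assoc] at h2
  exact h1.symm.trans h2

theorem Eqv.eq {u w : List S} (hu : Red u) (hw : Red w) (h : Eqv u w) : u = w := by
  unfold Eqv at h
  rwa [red_eq_self hu, red_eq_self hw] at h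

theorem Eqv.reverse {u w : List S} (h : Eqv u w) : Eqv u.reverse w.reverse := by
  apply eqv_of_append_reverse
  rw [List.reverse_reverse]
  exact (Eqv.append (Eqv.refl _) h.symm).trans (reverse_append_eqv u)

theorem red_reverse {w : List S} (h : Red w) : Red w.reverse := by
  have h1 : w.IsChain (fun a b => a ≠ b) := h
  refine List.isChain_reverse.2 ?_
  exact h1.imp fun a b hab => hab.symm

end P089.A
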