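
import Mathlib
import Vale.Agent.Lib.P089.A.Words

/-!
# P089, Part A: walks in partial coloured graphs, the family of finite graphs
-/

namespace P089.A

variable {S V V' P : Type}

/-- the colours act by partial involutions -/
def Sym (nb : V → S → Option V) : Prop := ∀ x s y, nb x s = some y → nb y s = some x

/-- the disjoint union `P` of the finite graphs; `L x = L_n` for `x` in `X_n` -/
structure Fam (S P : Type) where
  nb : P → S → Option P
  symm : ∀ x s y, nb x s = some y → nb y s = some x
  irr : ∀ x s, nb x s ≠ some x
  L : P → ℕ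
  L_nb : ∀ x s y, nb x s = some y → L y = L x
  L_pos : ∀ x, 1 ≤ L x
  girth : ∀ x w, Red w → w ≠ [] → walk nb x w = some x → 100 * L x ≤ w.length
  sc : ∀ x y w, x ≠ y → Red w → (walk nb x w).isSome → (walk nb y w).isSome →
    w.length < L x ∧ w.length < L y
  col : ∀ s, ∃ x, (nb x s).isSome

theorem walk_nil (nb : V → S → Option V) (x : V) : walk nb x [] = some x := rfl

theorem walk_cons_iff {nb : V → S → Option V} {x z : V} {s : S} {w : List S} :
    walk nb x (s :: w) = some z ↔ ∃ y, nb x s = some y ∧ walk nb y w = some z := by
  exact Option.bind_eq_some_iff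

theorem walk_append {nb : V → S → Option V} {x z : V} {u w : List S} :
    walk nb x (u ++ w) = some z ↔ ∃ y, walk nb x u = some y ∧ walk nb y w = some z := by
  induction u generalizing x with
  | nil =>
    constructor
    · intro h
      exact ⟨x, rfl, h⟩
    · rintro ⟨y, h1, h2⟩
      cases h1
      exact h2
  | cons s u ih =>
    rw [List.cons_append, walk_cons_iff]
    constructor
    · rintro ⟨y, h1, h2⟩
      obtain ⟨t, h3, h4⟩ := ih.1 h2
      exact ⟨t, walk_cons_iff.2 ⟨y, h1, h3⟩, h4⟩
    · rintro ⟨t, h3, h4⟩
      obtain ⟨y, h1, h2⟩ := walk_cons_iff.1 h3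
      exact ⟨y, h1, ih.2 ⟨t, h2, h4⟩⟩

theorem walk_trans {nb : V → S → Option V} {x y z : V} {u w : List S} (h : walk nb x u = some y)
    (h' : walk nb y w = some z) : walk nb x (u ++ w) = some z := walk_append.2 ⟨y, h, h'⟩

theorem walk_reverse {nb : V → S → Option V} (hs : Sym nb) {x y : V} {w : List S}
    (h : walk nb x w = some y) : walk nb y w.reverse = some x := by
  induction w generalizing x with
  | nil =>
    cases h
    rfl
  | cons s w ih =>
    obtain ⟨x1, h1, h2⟩ := walk_cons_iff.1 h
    rw [List.reverse_cons]
    exact walk_trans (ih h2) (walk_cons_iff.2 ⟨x, hs _ _ _ h1, rfl⟩)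

theorem walk_red {nb : V → S → Option V} (hs : Sym nb) {x y : V} {w : List S}
    (h : walk nb x w = some y) : walk nb x (red w) = some y := by
  induction w generalizing x with
  | nil => exact h
  | cons s w ih =>
    obtain ⟨x1, h1, h2⟩ := walk_cons_iff.1 h
    have h3 := ih h2
    have h4 : red (s :: w) = push s (red w) := rfl
    rw [h4]
    unfold push
    split_ifs with hh
    · obtain ⟨w', hw'⟩ : ∃ w', red w = s :: w' := by
        cases hr : red w with
        | nil =>
          rw [hr] at hh
          cases hh
        | cons a w' =>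
          rw [hr] at hh
          cases hh
          exact ⟨w', rfl⟩
      rw [hw'] at h3 ⊢
      obtain ⟨x2, h5, h6⟩ := walk_cons_iff.1 h3
      rw [hs _ _ _ h1] at h5
      cases h5
      exact h6
    · exact walk_cons_iff.2 ⟨x1, h1, h3⟩

theorem walk_inj {nb : V → S → Option V} (hs : Sym nb) {x x' y : V} {w : List S}
    (h : walk nb x w = some y) (h' : walk nb x' w = some y) : x = x' := by
  have h1 := walk_reverse hs h
  rw [walk_reverse hs h'] at h1
  exact (Option.some.inj h1).symm

theorem walk_map {nb : V → S → Option V} {nb' : V' → S → Option V'} (f : V → V')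
    (hf : ∀ v s u, nb v s = some u → nb' (f v) s = some (f u)) {v u : V} {w : List S}
    (h : walk nb v w = some u) : walk nb' (f v) w = some (f u) := by
  induction w generalizing v with
  | nil =>
    cases h
    rfl
  | cons s w ih =>
    obtain ⟨x1, h1, h2⟩ := walk_cons_iff.1 h
    exact walk_cons_iff.2 ⟨f x1, hf _ _ _ h1, ih h2⟩

theorem Fam.sym (F : Fam S P) : Sym F.nb := F.symm

theorem Fam.L_walk (F : Fam S P) {x y : P} {w : List S} (h : walk F.nb x w = some y) :
    F.L y = F.L x := by
  induction w generalizing x with
  | nil =>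
    cases h
    rfl
  | cons s w ih =>
    obtain ⟨x1, h1, h2⟩ := walk_cons_iff.1 h
    rw [ih h2, F.L_nb _ _ _ h1]

/-- short closed words are trivial (reduce, then `girth`) -/
theorem Fam.closed_eqv (F : Fam S P) {x : P} {w : List S} (h : walk F.nb x w = some x)
    (hl : w.length < 100 * F.L x) : Eqv w [] := by
  by_contra hne
  have hne' : red w ≠ [] := fun h0 => hne h0
  have h1 := F.girth x (red w) (red_red w) hne' (walk_red F.sym h)
  have h2 := length_red_le w
  omega

/-- two words with the same ends and short total length are equal in the group -/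
theorem Fam.eqv_of_walk (F : Fam S P) {x y : P} {u w : List S} (hu : walk F.nb x u = some y)
    (hw : walk F.nb x w = some y) (hl : u.length + w.length < 100 * F.L x) : Eqv u w := by
  refine eqv_of_append_reverse (F.closed_eqv (walk_trans hu (walk_reverse F.sym hw)) ?_)
  rw [List.length_append, List.length_reverse]
  exact hl

/-- a word readable at two different positions: its reduction is short -/
theorem Fam.red_lt (F : Fam S P) {z z' y y' : P} {w : List S} (hne : z ≠ z')
    (h : walk F.nb z w = some y) (h' : walk F.nb z' w = some y') :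
    (red w).length < F.L z ∧ (red w).length < F.L z' := by
  refine F.sc z z' (red w) hne (red_red w) ?_ ?_
  · rw [walk_red F.sym h]
    rfl
  · rw [walk_red F.sym h']
    rfl

/-- the same for reduced words -/
theorem Fam.lt_of_red (F : Fam S P) {z z' y y' : P} {w : List S} (hne : z ≠ z') (hw : Red w)
    (h : walk F.nb z w = some y) (h' : walk F.nb z' w = some y') :
    w.length < F.L z ∧ w.length < F.L z' := by
  refine F.sc z z' w hne hw ?_ ?_
  · rw [h]
    rfl
  · rw [h']
    rfl

end P089.A
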