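
import Mathlib
import Vale.Agent.Lib.P089.A.Words

/-!
# P089, Part A: two cancellation lemmas for words
-/

namespace P089.A

variable {S : Type}

/-- longest common prefix -/
theorem exists_lcp (u w : List S) :
    ∃ p a b, u = p ++ a ∧ w = p ++ b ∧ (a = [] ∨ b = [] ∨ a.head? ≠ b.head?) := by
  induction u generalizing w with
  | nil => exact ⟨[], [], w, rfl, rfl, Or.inl rfl⟩
  | cons s u ih =>
    cases w with
    | nil => exact ⟨[], s :: u, [], rfl, rfl, Or.inr (Or.inl rfl)⟩
    | cons t w =>
      by_cases hst : s = t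
      · subst hst
        obtain ⟨p, a, b, h1, h2, h3⟩ := ih w
        exact ⟨s :: p, a, b, by rw [h1]; rfl, by rw [h2]; rfl, h3⟩
      · refine ⟨[], s :: u, t :: w, rfl, rfl, Or.inr (Or.inr ?_)⟩
        intro h
        exact hst (Option.some.inj h)

/-- longest common suffix -/
theorem exists_lcs (u w : List S) :
    ∃ a b c, u = a ++ c ∧ w = b ++ c ∧ (a = [] ∨ b = [] ∨ a.getLast? ≠ b.getLast?) := by
  obtain ⟨p, a, b, h1, h2, h3⟩ := exists_lcp u.reverse w.reverse
  refine ⟨a.reverse, b.reverse, p.reverse, ?_, ?_, ?_⟩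
  · rw [← List.reverse_append, ← h1, List.reverse_reverse]
  · rw [← List.reverse_append, ← h2, List.reverse_reverse]
  · rcases h3 with h3 | h3 | h3
    · exact Or.inl (by rw [h3]; rfl)
    · exact Or.inr (Or.inl (by rw [h3]; rfl))
    · refine Or.inr (Or.inr ?_)
      rw [List.getLast?_reverse, List.getLast?_reverse]
      exact h3

private theorem words2_cancel_right (u c : List S) : Eqv ((u ++ c) ++ c.reverse) u := by
  rw [List.append_assoc]
  have h := Eqv.append (Eqv.refl u) (append_reverse_eqv c)
  rw [List.append_nil] at h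
  exact h

private theorem words2_cancel_left (u c : List S) : Eqv (c.reverse ++ (c ++ u)) u := by
  rw [← List.append_assoc]
  exact Eqv.append (reverse_append_eqv c) (Eqv.refl u)

private theorem words2_red_append {u w : List S} (hu : Red u) (hw : Red w)
    (h : ∀ x ∈ u.getLast?, ∀ y ∈ w.head?, x ≠ y) : Red (u ++ w) :=
  List.isChain_append.2 ⟨hu, hw, h⟩

private theorem words2_left {u w : List S} (h : Red (u ++ w)) : Red u :=
  (List.isChain_append.1 h).1

private theorem words2_right {u w : List S} (h : Red (u ++ w)) : Red w :=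
  (List.isChain_append.1 h).2.1

/-- `w₁ = ρ w₂` in the group, all three reduced: `w₁ = p c`, `w₂ = q c`, `ρ = p q⁻¹` as words
(`c` the longest common suffix). -/
theorem exists_two {w₁ w₂ ρ : List S} (h₁ : Red w₁) (h₂ : Red w₂) (hρ : Red ρ)
    (h : Eqv w₁ (ρ ++ w₂)) : ∃ p q c, w₁ = p ++ c ∧ w₂ = q ++ c ∧ ρ = p ++ q.reverse := by
  obtain ⟨p, q, c, e1, e2, h3⟩ := exists_lcs w₁ w₂
  refine ⟨p, q, c, e1, e2, ?_⟩
  subst e1
  subst e2
  have k1 : Eqv p (ρ ++ q) := by
    have k2 := Eqv.append h (Eqv.refl c.reverse)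
    have k3 : Eqv ((ρ ++ (q ++ c)) ++ c.reverse) (ρ ++ q) := by
      rw [← List.append_assoc]
      exact words2_cancel_right (ρ ++ q) c
    exact (words2_cancel_right p c).symm.trans (k2.trans k3)
  have k4 : Eqv (p ++ q.reverse) ρ :=
    (Eqv.append k1 (Eqv.refl q.reverse)).trans (words2_cancel_right ρ q)
  have k5 : Red (p ++ q.reverse) := by
    refine words2_red_append (words2_left h₁) (red_reverse (words2_left h₂)) ?_
    intro x hx y hy hxy
    subst hxy
    rw [List.head?_reverse] at hy
    rcases h3 with h3 | h3 | h3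
    · subst h3
      simp at hx
    · subst h3
      simp at hy
    · apply h3
      rw [Option.mem_def.1 hx, Option.mem_def.1 hy]
  exact (Eqv.eq k5 hρ k4).symm

/-- `P = α β γ` in the group, all four reduced: either `P` is a prefix of `α` followed by a suffix of `γ`, or
a nonempty middle part of `P` survives from `β`.  (Longest common prefix of `P` and `α`, then longest common
suffix of the rest of `P` and `γ`; if something is left then `g⁻¹ M k⁻¹` is reduced and equal to `β` in the
group, hence as a word.) -/
theorem exists_tri {P α β γ : List S} (hP : Red P) (hα : Red α) (hβ : Red β) (hγ : Red γ)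
    (h : Eqv P (α ++ (β ++ γ))) :
    (∃ P₁ P₂, P = P₁ ++ P₂ ∧ P₁ <+: α ∧ P₂ <:+ γ) ∨
      ∃ P₁ M P₂ g k, M ≠ [] ∧ P = P₁ ++ (M ++ P₂) ∧ α = P₁ ++ g ∧ γ = k ++ P₂ ∧
        β = g.reverse ++ (M ++ k.reverse) := by
  obtain ⟨P₁, P', g, e1, e2, h3⟩ := exists_lcp P α
  obtain ⟨M, k, P₂, e3, e4, h4⟩ := exists_lcs P' γ
  by_cases hM : M = []
  · left
    refine ⟨P₁, P₂, ?_, ?_, ?_⟩
    · rw [e1, e3, hM]
      rfl
    · exact ⟨g, e2.symm⟩
    · exact ⟨k, e4.symm⟩
  · right
    refine ⟨P₁, M, P₂, g, k, hM, by rw [e1, e3], e2, e4, ?_⟩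
    subst e3
    subst e1
    subst e2
    subst e4
    -- cancel `P₁` on the left and `P₂` on the right
    have k1 : Eqv (M ++ P₂) (g ++ (β ++ (k ++ P₂))) := by
      have k2 := Eqv.append (Eqv.refl P₁.reverse) h
      rw [List.append_assoc P₁ g] at k2
      exact (words2_cancel_left _ P₁).symm.trans (k2.trans (words2_cancel_left _ P₁))
    have k3 : Eqv M (g ++ (β ++ k)) := by
      have k2 := Eqv.append k1 (Eqv.refl P₂.reverse)
      have k4 : g ++ (β ++ (k ++ P₂)) = (g ++ (β ++ k)) ++ P₂ := by
        simp only [List.append_assoc]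
      rw [k4] at k2
      exact (words2_cancel_right _ P₂).symm.trans (k2.trans (words2_cancel_right _ P₂))
    have k5 : Eqv (g.reverse ++ M) (β ++ k) :=
      (Eqv.append (Eqv.refl g.reverse) k3).trans (words2_cancel_left _ g)
    have k6 : Eqv (g.reverse ++ (M ++ k.reverse)) β := by
      rw [← List.append_assoc]
      exact (Eqv.append k5 (Eqv.refl k.reverse)).trans (words2_cancel_right _ k)
    have rM : Red M := words2_left (words2_right hP)
    have rg : Red g := words2_right hα
    have rk : Red k := words2_left hγ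
    have r1 : Red (M ++ k.reverse) := by
      refine words2_red_append rM (red_reverse rk) ?_
      intro x hx y hy hxy
      subst hxy
      rw [List.head?_reverse] at hy
      rcases h4 with h4 | h4 | h4
      · exact hM h4
      · subst h4
        simp at hy
      · apply h4
        rw [Option.mem_def.1 hx, Option.mem_def.1 hy]
    have r2 : Red (g.reverse ++ (M ++ k.reverse)) := by
      refine words2_red_append (red_reverse rg) r1 ?_
      intro x hx y hy hxy
      subst hxy
      rw [List.getLast?_reverse] at hx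
      obtain ⟨m, M', rfl⟩ := List.exists_cons_of_ne_nil hM
      rcases h3 with h3 | h3 | h3
      · simp at h3
      · subst h3
        simp at hx
      · apply h3
        rw [Option.mem_def.1 hx]
        simpa using hy
    exact (Eqv.eq r2 hβ k6).symm

end P089.A
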