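
import Mathlib
import Vale.Agent.Lib.P089.A.Walk
import Vale.Agent.Lib.P089.A.Words2

/-!
# P089, Part A: states, complete and short states, the relation on triples

`Z` is a partial coloured graph.  A state is a pair `(v, x)` of a vertex of `Z` and a position in the family.
`Rel nb F v x y v' x' y'`: the point at position `y` of the copy through the state `(v, x)` is the same as
the point at position `y'` of the copy through `(v', x')`.
-/

namespace P089.A

variable {S P Z : Type}

/-- simultaneous moves -/
def Same (nb : Z → S → Option Z) (F : Fam S P) (v : Z) (x : P) (u : Z) (z : P) : Prop :=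
  ∃ a, walk nb v a = some u ∧ walk F.nb x a = some z

/-- the copy through the state is contained in `Z` (and embedded) -/
def Complete (nb : Z → S → Option Z) (F : Fam S P) (v : Z) (x : P) : Prop :=
  (∀ w y, walk F.nb x w = some y → ∃ u, walk nb v w = some u) ∧
    ∀ w w' y y', walk F.nb x w = some y → walk F.nb x w' = some y' →
      (walk nb v w = walk nb v w' ↔ y = y')

/-- common reduced words are short -/
def Short (nb : Z → S → Option Z) (F : Fam S P) (v : Z) (x : P) : Prop :=
  ∀ w u y, Red w → walk nb v w = some u → walk F.nb x w = some y → w.length < 2 * F.L x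

/-- the induction hypothesis of the construction -/
structure Inv (nb : Z → S → Option Z) (F : Fam S P) : Prop where
  sym : Sym nb
  i : ∀ v x, Complete nb F v x ∨ Short nb F v x
  ii : ∀ v x x', ¬ Complete nb F v x → ¬ Complete nb F v x' → ∀ w w' u y y', Red w → Red w' →
    walk nb v w = some u → walk F.nb x w = some y → walk nb v w' = some u →
    walk F.nb x' w' = some y' → w = w'

/-- the relation on triples -/
def Rel (nb : Z → S → Option Z) (F : Fam S P) (v : Z) (x y : P) (v' : Z) (x' y' : P) : Prop :=
  ∃ u z z' w, Same nb F v x u z ∧ Same nb F v' x' u z' ∧ walk F.nb z w = some y ∧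
    walk F.nb z' w = some y'

variable {nb : Z → S → Option Z} {F : Fam S P}

theorem Same.refl (v : Z) (x : P) : Same nb F v x v x := ⟨[], rfl, rfl⟩

theorem Same.symm (hs : Sym nb) {v u : Z} {x z : P} (h : Same nb F v x u z) : Same nb F u z v x := by
  obtain ⟨a, h1, h2⟩ := h
  exact ⟨a.reverse, walk_reverse hs h1, walk_reverse F.sym h2⟩

/-- walking along a concatenation -/
theorem Rel_walk_app {V : Type} {nb : V → S → Option V} {v u : V} {a : List S}
    (h : walk nb v a = some u) (w : List S) : walk nb v (a ++ w) = walk nb u w := by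
  refine Option.ext fun t => ?_
  constructor
  · intro ht
    obtain ⟨y, h1, h2⟩ := walk_append.1 ht
    rw [h] at h1
    cases h1
    exact h2
  · intro ht
    exact walk_trans h ht

theorem Same.trans {v u t : Z} {x z y : P} (h : Same nb F v x u z) (h' : Same nb F u z t y) :
    Same nb F v x t y := by
  obtain ⟨a, h1, h2⟩ := h
  obtain ⟨b, h3, h4⟩ := h'
  exact ⟨a ++ b, walk_trans h1 h3, walk_trans h2 h4⟩

/-- a common word may be taken reduced -/
theorem Same.exists_red (hs : Sym nb) {v u : Z} {x z : P} (h : Same nb F v x u z) :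
    ∃ a, Red a ∧ walk nb v a = some u ∧ walk F.nb x a = some z := by
  obtain ⟨a, h1, h2⟩ := h
  exact ⟨red a, red_red a, walk_red hs h1, walk_red F.sym h2⟩

theorem Same.L_eq {v u : Z} {x z : P} (h : Same nb F v x u z) : F.L z = F.L x := by
  obtain ⟨a, _, h2⟩ := h
  exact F.L_walk h2

theorem Same.complete (hs : Sym nb) {v u : Z} {x z : P} (h : Same nb F v x u z)
    (hc : Complete nb F v x) : Complete nb F u z := by
  obtain ⟨a, h1, h2⟩ := h
  refine ⟨fun w y hw => ?_, fun w w' y y' hw hw' => ?_⟩
  · obtain ⟨t, ht⟩ := hc.1 (a ++ w) y (walk_trans h2 hw)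
    rw [Rel_walk_app h1] at ht
    exact ⟨t, ht⟩
  · have h3 := hc.2 (a ++ w) (a ++ w') y y' (walk_trans h2 hw) (walk_trans h2 hw')
    rwa [Rel_walk_app h1, Rel_walk_app h1] at h3

/-- a vertex of a copy determines its position -/
theorem Inv.same_pt (hI : Inv nb F) {v : Z} {x x' : P} (h : Same nb F v x v x') : x = x' := by
  obtain ⟨a, h1, h2⟩ := h
  by_cases hc : Complete nb F v x
  · have h3 := hc.2 a [] x' x h2 rfl
    exact (h3.1 h1).symm
  · have h3 := hI.ii v x x hc hc (red a) [] v x' x (red_red a) List.IsChain.nil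
      (walk_red hI.sym h1) (walk_red F.sym h2) rfl rfl
    have h4 := walk_red F.sym h2
    rw [h3, walk_nil] at h4
    exact Option.some.inj h4

/-- a position of a copy determines the vertex -/
theorem Inv.same_vtx (hI : Inv nb F) {v v' : Z} {x : P} (h : Same nb F v x v' x) : v = v' := by
  obtain ⟨a, h1, h2⟩ := h
  rcases hI.i v x with hc | hs
  · have h3 := (hc.2 a [] x x h2 rfl).2 rfl
    rw [h1, walk_nil] at h3
    exact (Option.some.inj h3).symm
  · have h1' := walk_red hI.sym h1
    have h2' := walk_red F.sym h2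
    have h3 := hs (red a) v' x (red_red a) h1' h2'
    have hpos := F.L_pos x
    have h4 : red a = [] := by
      by_contra hne
      have h5 := F.girth x (red a) (red_red a) hne h2'
      omega
    rw [h4, walk_nil] at h1'
    exact Option.some.inj h1'

/-- a short reduced word of the copy between two vertices of `Z` is readable in `Z` -/
theorem Inv.pull (hI : Inv nb F) {v u : Z} {x z : P} (h : Same nb F v x u z) {w : List S}
    (hw : Red w) (hl : w.length < F.L z) (hz : walk F.nb z w = some x) : walk nb u w = some v := by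
  have hLz := h.L_eq
  rcases hI.i v x with hc | hs
  · have hc' := h.complete hI.sym hc
    obtain ⟨a, h1, h2⟩ := h.symm hI.sym
    have h3 := (hc'.2 w a x x hz h2).2 rfl
    rw [h3, h1]
  · obtain ⟨a, ha, h1, h2⟩ := h.exists_red hI.sym
    have h3 := hs a u z ha h1 h2
    have hpos := F.L_pos x
    have h4 : Eqv (a ++ w) [] := by
      refine F.closed_eqv (walk_trans h2 hz) ?_
      rw [List.length_append]
      omega
    have h5 : Eqv a w.reverse := by
      refine eqv_of_append_reverse ?_
      rwa [List.reverse_reverse]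
    have h6 : a = w.reverse := h5.eq ha (red_reverse hw)
    have h7 := walk_reverse hI.sym h1
    rwa [h6, List.reverse_reverse] at h7

theorem Rel.refl {v : Z} {x y : P} {w : List S} (h : walk F.nb x w = some y) :
    Rel nb F v x y v x y := ⟨v, x, x, w, Same.refl v x, Same.refl v x, h, h⟩

theorem Rel.symm {v v' : Z} {x y x' y' : P} (h : Rel nb F v x y v' x' y') :
    Rel nb F v' x' y' v x y := by
  obtain ⟨u, z, z', w, h₁, h₂, h₃, h₄⟩ := h
  exact ⟨u, z', z, w, h₂, h₁, h₄, h₃⟩

/-- the copy may be represented by any of its states -/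
theorem Rel.of_same {v v' : Z} {x x' y : P} {w : List S} (h : Same nb F v x v' x')
    (hw : walk F.nb x' w = some y) : Rel nb F v x y v' x' y :=
  ⟨v', x', x', w, h, Same.refl v' x', hw, hw⟩

theorem Rel.step {v v' : Z} {x y x' y' y₁ y₁' : P} {s : S} (h : Rel nb F v x y v' x' y')
    (hy : F.nb y s = some y₁) (hy' : F.nb y' s = some y₁') : Rel nb F v x y₁ v' x' y₁' := by
  obtain ⟨u, z, z', w, h₁, h₂, h₃, h₄⟩ := h
  refine ⟨u, z, z', w ++ [s], h₁, h₂, walk_trans h₃ ?_, walk_trans h₄ ?_⟩
  · exact walk_cons_iff.2 ⟨y₁, hy, rfl⟩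
  · exact walk_cons_iff.2 ⟨y₁', hy', rfl⟩

/-- the words in `Rel` may be taken reduced, and then are short unless the two copies have the same
position (and then `y = y'`) -/
theorem Rel.exists_red {v v' : Z} {x y x' y' : P} (h : Rel nb F v x y v' x' y') :
    ∃ u z z' w, Same nb F v x u z ∧ Same nb F v' x' u z' ∧ walk F.nb z w = some y ∧
      walk F.nb z' w = some y' ∧ Red w ∧
      ((z = z' ∧ y = y') ∨ (z ≠ z' ∧ y ≠ y' ∧ w.length < F.L z ∧ w.length < F.L z')) := by
  obtain ⟨u, z, z', w, h₁, h₂, h₃, h₄⟩ := h
  refine ⟨u, z, z', red w, h₁, h₂, walk_red F.sym h₃, walk_red F.sym h₄, red_red w, ?_⟩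
  by_cases hz : z = z'
  · subst hz
    rw [h₃] at h₄
    exact Or.inl ⟨rfl, Option.some.inj h₄⟩
  · refine Or.inr ⟨hz, ?_, F.red_lt hz h₃ h₄⟩
    rintro rfl
    exact hz (walk_inj F.sym h₃ h₄)

end P089.A
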