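
import Mathlib
import Vale.Agent.Lib.P089.A.Rel

/-!
# P089, Part A: the relation on triples is transitive
-/

namespace P089.A

variable {S P Z : Type} {nb : Z → S → Option Z} {F : Fam S P}

/-- transitivity: case middle copy complete; case short: the closed word `ρ w₂ w₁⁻¹` has length `< 4 L`,
hence `w₁ = ρ w₂` in the group and `exists_two` gives a common vertex of the two outer copies in `Z`. -/
theorem Rel.trans (hI : Inv nb F) {v v' v'' : Z} {x y x' y' x'' y'' : P}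
    (h : Rel nb F v x y v' x' y') (h' : Rel nb F v' x' y' v'' x'' y'') :
    Rel nb F v x y v'' x'' y'' := by
  have hs := hI.sym
  obtain ⟨u₁, z₁, z₁', w₁, hv1, hv1', hw1, hw1', hr1, hc1⟩ := h.exists_red
  obtain ⟨u₂, z₂', z₂, w₂, hv2', hv2, hw2', hw2, hr2, hc2⟩ := h'.exists_red
  rcases hc1 with ⟨hz1, hy1⟩ | ⟨-, -, -, hl1'⟩
  · subst hz1
    subst hy1
    have hvv : Same nb F v x v' x' := hv1.trans (hv1'.symm hs)
    exact ⟨u₂, z₂', z₂, w₂, hvv.trans hv2', hv2, hw2', hw2⟩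
  rcases hc2 with ⟨hz2, hy2⟩ | ⟨-, -, hl2', -⟩
  · subst hz2
    subst hy2
    have hvv : Same nb F v'' x'' v' x' := hv2.trans (hv2'.symm hs)
    exact ⟨u₁, z₁, z₁', w₁, hv1, hvv.trans hv1', hw1, hw1'⟩
  have hm : Same nb F u₁ z₁' u₂ z₂' := (hv1'.symm hs).trans hv2'
  obtain ⟨ρ, hρ, hρu, hρz⟩ := hm.exists_red hs
  have hL : F.L z₂' = F.L z₁' := hm.L_eq
  rcases hI.i u₁ z₁' with hC | hS
  · obtain ⟨t, ht⟩ := hC.1 w₁ y' hw1'
    have h2 : walk nb u₁ (ρ ++ w₂) = walk nb u₁ w₁ :=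
      (hC.2 (ρ ++ w₂) w₁ y' y' (walk_trans hρz hw2') hw1').2 rfl
    rw [ht] at h2
    obtain ⟨t', ht', ht2⟩ := walk_append.1 h2
    rw [hρu] at ht'
    have htt : u₂ = t' := Option.some.inj ht'
    subst htt
    exact ⟨t, y, y'', [], hv1.trans ⟨w₁, ht, hw1⟩, hv2.trans ⟨w₂, ht2, hw2⟩, rfl, rfl⟩
  · have hρl : ρ.length < 2 * F.L z₁' := hS ρ u₂ z₂' hρ hρu hρz
    have hE : Eqv w₁ (ρ ++ w₂) := by
      apply F.eqv_of_walk hw1' (walk_trans hρz hw2')
      simp only [List.length_append]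
      omega
    obtain ⟨p, q, c, h1, h2, h3⟩ := exists_two hr1 hr2 hρ hE
    subst h1
    subst h2
    subst h3
    obtain ⟨t, htp, htq⟩ := walk_append.1 hρu
    obtain ⟨a, hap, hac⟩ := walk_append.1 hw1
    obtain ⟨b, hbq, hbc⟩ := walk_append.1 hw2
    have htq' : walk nb u₂ q = some t := by
      simpa using walk_reverse hs htq
    exact ⟨t, a, b, c, hv1.trans ⟨p, htp, hap⟩, hv2.trans ⟨q, htq', hbq⟩, hac, hbc⟩

/-- two points of the same copy -/
theorem Rel.inj (hI : Inv nb F) {v v' : Z} {x x' y y' : P} (hS : Same nb F v x v' x')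
    (h : Rel nb F v x y v' x' y') : y = y' := by
  obtain ⟨u, z, z', w, h₁, h₂, h₃, h₄⟩ := h
  have hz : z = z' := hI.same_pt ((h₁.symm hI.sym).trans (hS.trans h₂))
  subst hz
  rw [h₃] at h₄
  exact Option.some.inj h₄

/-- a point of a copy which is an old vertex `v'` is already in the part of the copy in `Z` -/
theorem Rel.old (hI : Inv nb F) {v v' : Z} {x x' y : P} (h : Rel nb F v x y v' x' x') :
    Same nb F v x v' y := by
  obtain ⟨u, z, z', w, h₁, h₂, h₃, h₄, hr, hc⟩ := h.exists_red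
  rcases hc with ⟨hz, hy⟩ | ⟨-, -, -, hl⟩
  · subst hz
    subst hy
    exact h₁.trans (h₂.symm hI.sym)
  · exact h₁.trans ⟨w, hI.pull h₂ hr hl h₄, h₃⟩

end P089.A
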