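
import Mathlib
import Vale.Agent.Lib.P089.A.RelTrans

/-!
# P089, Part A: the graph `Z⁺`, obtained from `Z` by completing all copies at once
-/

namespace P089.A

variable {S P Z : Type}

/-- `y` is in the component of `x` -/
def Reach (F : Fam S P) (x y : P) : Prop := ∃ w, walk F.nb x w = some y

theorem Reach.refl (F : Fam S P) (x : P) : Reach F x x := ⟨[], rfl⟩

theorem Reach.step {F : Fam S P} {x y y₁ : P} {s : S} (h : Reach F x y) (hs : F.nb y s = some y₁) :
    Reach F x y₁ := by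
  obtain ⟨w, hw⟩ := h
  exact ⟨w ++ [s], walk_append.2 ⟨y, hw, walk_cons_iff.2 ⟨y₁, hs, rfl⟩⟩⟩

theorem Reach.walk {F : Fam S P} {x y y₁ : P} {w : List S} (h : Reach F x y)
    (hw : walk F.nb y w = some y₁) : Reach F x y₁ := by
  obtain ⟨u, hu⟩ := h
  exact ⟨u ++ w, walk_trans hu hw⟩

/-- triples -/
def Tri (Z : Type) (F : Fam S P) : Type := {t : Z × P × P // Reach F t.2.1 t.2.2}

/-- the equivalence relation -/
def triSetoid (nb : Z → S → Option Z) (F : Fam S P) (hI : Inv nb F) : Setoid (Tri Z F) where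
  r a b := Rel nb F a.1.1 a.1.2.1 a.1.2.2 b.1.1 b.1.2.1 b.1.2.2
  iseqv :=
    { refl := fun a => Rel.refl a.2.choose_spec
      symm := fun h => Rel.symm h
      trans := fun h h' => Rel.trans hI h h' }

/-- the vertices of `Z⁺` -/
def Next (nb : Z → S → Option Z) (F : Fam S P) (hI : Inv nb F) : Type :=
  Quotient (triSetoid nb F hI)

section

variable {nb : Z → S → Option Z} {F : Fam S P} (hI : Inv nb F)

/-- the point at position `y` of the copy through the state `(v, x)` -/
def mk (v : Z) (x y : P) (h : Reach F x y) : Next nb F hI :=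
  Quotient.mk (triSetoid nb F hI) ⟨(v, x, y), h⟩

theorem mk_eq {v v' : Z} {x y x' y' : P} {h : Reach F x y} {h' : Reach F x' y'} :
    mk hI v x y h = mk hI v' x' y' h' ↔ Rel nb F v x y v' x' y' :=
  Quotient.eq (r := triSetoid nb F hI)

theorem exists_mk (c : Next nb F hI) : ∃ v x y h, c = mk hI v x y h := by
  obtain ⟨⟨⟨v, x, y⟩, h⟩, rfl⟩ := Quotient.exists_rep c
  exact ⟨v, x, y, h, rfl⟩

theorem mk_of_same {v v' : Z} {x x' y : P} (h : Same nb F v x v' x') (hy : Reach F x y)
    (hy' : Reach F x' y) : mk hI v x y hy = mk hI v' x' y hy' :=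
  (mk_eq hI).2 (Rel.of_same h hy'.choose_spec)

/-- the embedding of `Z` into `Z⁺` (independent of the position `x₀`) -/
def emb (x₀ : P) (v : Z) : Next nb F hI := mk hI v x₀ x₀ (Reach.refl F x₀)

theorem mk_self (x₀ : P) (v : Z) (x : P) (h : Reach F x x) : mk hI v x x h = emb hI x₀ v :=
  (mk_eq hI).2 ⟨v, x, x₀, [], Same.refl v x, Same.refl v x₀, rfl, rfl⟩

theorem mk_eq_emb {x₀ : P} {v v' : Z} {x y : P} {h : Reach F x y}
    (he : mk hI v x y h = emb hI x₀ v') : Same nb F v x v' y :=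
  Rel.old hI ((mk_eq hI).1 he)

theorem emb_injective (x₀ : P) : Function.Injective (emb hI x₀) := fun _ _ h =>
  hI.same_vtx (mk_eq_emb hI (h := Reach.refl F x₀) h)

open Classical in
/-- the edges of `Z⁺`: the edges of the copies -/
noncomputable def nbNext (c : Next nb F hI) (s : S) : Option (Next nb F hI) :=
  if h : ∃ c' : Next nb F hI, ∃ v x y y₁ hy hy₁, F.nb y s = some y₁ ∧ c = mk hI v x y hy ∧
      c' = mk hI v x y₁ hy₁ then some h.choose else none

theorem nbNext_iff {c c' : Next nb F hI} {s : S} : nbNext hI c s = some c' ↔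
    ∃ v x y y₁ hy hy₁, F.nb y s = some y₁ ∧ c = mk hI v x y hy ∧ c' = mk hI v x y₁ hy₁ := by
  constructor
  · intro h
    unfold nbNext at h
    by_cases hex : ∃ c' : Next nb F hI, ∃ v x y y₁ hy hy₁, F.nb y s = some y₁ ∧
        c = mk hI v x y hy ∧ c' = mk hI v x y₁ hy₁
    · rw [dif_pos hex] at h
      rw [← Option.some.inj h]
      exact hex.choose_spec
    · rw [dif_neg hex] at h
      exact absurd h (by simp)
  · rintro ⟨v, x, y, y₁, hy, hy₁, hs, hc, hc'⟩
    have hex : ∃ c' : Next nb F hI, ∃ v x y y₁ hy hy₁, F.nb y s = some y₁ ∧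
        c = mk hI v x y hy ∧ c' = mk hI v x y₁ hy₁ := ⟨c', v, x, y, y₁, hy, hy₁, hs, hc, hc'⟩
    unfold nbNext
    rw [dif_pos hex]
    congr 1
    obtain ⟨v', x', y', y₁', hy', hy₁', hs', hc1, hc1'⟩ := hex.choose_spec
    rw [hc1', hc']
    exact (mk_eq hI).2 (Rel.step ((mk_eq hI).1 (hc1.symm.trans hc)) hs' hs)

end

end P089.A
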