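
import Mathlib
import Vale.Agent.Lib.P089.A.Step

/-!
# P089, Part A: the graph `Z⁺`, part 2
-/

namespace P089.A

variable {S P Z : Type}

section

variable {nb : Z → S → Option Z} {F : Fam S P} (hI : Inv nb F)

theorem nbNext_sym : Sym (nbNext hI) := by
  intro c s c' h
  obtain ⟨v, x, y, y₁, hy, hy₁, hs, hc, hc'⟩ := (nbNext_iff hI).1 h
  exact (nbNext_iff hI).2 ⟨v, x, y₁, y, hy₁, hy, F.symm _ _ _ hs, hc', hc⟩

theorem nbNext_mk {v : Z} {x y y₁ : P} {s : S} (hy : Reach F x y) (hy₁ : Reach F x y₁)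
    (h : F.nb y s = some y₁) : nbNext hI (mk hI v x y hy) s = some (mk hI v x y₁ hy₁) :=
  (nbNext_iff hI).2 ⟨v, x, y, y₁, hy, hy₁, h, rfl, rfl⟩

theorem walk_mk {v : Z} {x y y₁ : P} {w : List S} (hy : Reach F x y) (hy₁ : Reach F x y₁)
    (h : walk F.nb y w = some y₁) :
    walk (nbNext hI) (mk hI v x y hy) w = some (mk hI v x y₁ hy₁) := by
  induction w generalizing y with
  | nil =>
    have h' : y = y₁ := by
      rw [walk_nil] at h
      exact Option.some.inj h
    subst h'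
    exact walk_nil _ _
  | cons s w ih =>
    obtain ⟨z, hz, hw⟩ := walk_cons_iff.1 h
    have hz' : Reach F x z := hy.step hz
    exact walk_cons_iff.2 ⟨mk hI v x z hz', nbNext_mk hI hy hz' hz, ih hz' hw⟩

theorem emb_edge (x₀ : P) {v u : Z} {s : S} (h : nb v s = some u) :
    nbNext hI (emb hI x₀ v) s = some (emb hI x₀ u) := by
  obtain ⟨x, hx⟩ := F.col s
  obtain ⟨y, hy⟩ := Option.isSome_iff_exists.1 hx
  have hxy : Reach F x y := (Reach.refl F x).step hy
  have h1 : mk hI v x x (Reach.refl F x) = emb hI x₀ v := mk_self hI x₀ v x (Reach.refl F x)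
  have h2 : mk hI u y y (Reach.refl F y) = emb hI x₀ u := mk_self hI x₀ u y (Reach.refl F y)
  have hS : Same nb F v x u y :=
    ⟨[s], walk_cons_iff.2 ⟨u, h, walk_nil _ _⟩, walk_cons_iff.2 ⟨y, hy, walk_nil _ _⟩⟩
  have h3 : mk hI v x y hxy = mk hI u y y (Reach.refl F y) := mk_of_same hI hS hxy (Reach.refl F y)
  rw [← h1, ← h2, ← h3]
  exact nbNext_mk hI _ _ hy

theorem complete_mk {v : Z} {x t : P} (h : Reach F x t) :
    Complete (nbNext hI) F (mk hI v x t h) t := by
  refine ⟨fun w y hw => ⟨_, walk_mk hI h (h.walk hw) hw⟩, ?_⟩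
  intro w w' y y' hw hw'
  rw [walk_mk hI h (h.walk hw) hw, walk_mk hI h (h.walk hw') hw']
  constructor
  · intro he
    exact Rel.inj hI (Same.refl v x) ((mk_eq hI).1 (Option.some.inj he))
  · intro he
    subst he
    rfl

theorem complete_emb (x₀ : P) (v : Z) (x : P) : Complete (nbNext hI) F (emb hI x₀ v) x := by
  rw [← mk_self hI x₀ v x (Reach.refl F x)]
  exact complete_mk hI (Reach.refl F x)

/-- every colour is readable at an old vertex -/
theorem exists_nb_emb (x₀ : P) (v : Z) (s : S) : ∃ c, nbNext hI (emb hI x₀ v) s = some c := by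
  obtain ⟨x, hx⟩ := F.col s
  obtain ⟨y, hy⟩ := Option.isSome_iff_exists.1 hx
  rw [← mk_self hI x₀ v x (Reach.refl F x)]
  exact ⟨_, nbNext_mk hI (Reach.refl F x) ((Reach.refl F x).step hy) hy⟩

/-- a copy which is complete in `Z` gives no new vertices -/
theorem mk_of_complete (x₀ : P) {v : Z} {x y : P} (h : Reach F x y) (hc : Complete nb F v x) :
    ∃ u, mk hI v x y h = emb hI x₀ u := by
  obtain ⟨w, hw⟩ := id h
  obtain ⟨u, hu⟩ := hc.1 w y hw
  refine ⟨u, ?_⟩
  rw [mk_of_same hI (⟨w, hu, hw⟩ : Same nb F v x u y) h (Reach.refl F y)]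
  exact mk_self hI x₀ u y (Reach.refl F y)

end

end P089.A
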