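
import Mathlib
import Vale.Agent.Lib.P089.A.Step2

/-!
# P089, Part A: Lemma K
-/

namespace P089.A

variable {S P Z : Type} {nb : Z → S → Option Z} {F : Fam S P} (hI : Inv nb F)

/-- **Lemma K**: two vertices in two new copies are joined by a common word. -/
theorem lemK {va vb : Z} {xa y₁ y₂ xb y₁' y₂' : P} {h₁ : Reach F xa y₁} {h₂ : Reach F xa y₂}
    {h₃ : Reach F xb y₁'} {h₄ : Reach F xb y₂'} (ha : ¬ Complete nb F va xa)
    (hb : ¬ Complete nb F vb xb) (h : mk hI va xa y₁ h₁ = mk hI vb xb y₁' h₃)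
    (h' : mk hI va xa y₂ h₂ = mk hI vb xb y₂' h₄) :
    ∃ k, P089.walk F.nb y₁ k = some y₂ ∧ P089.walk F.nb y₁' k = some y₂' := by
  obtain ⟨u₁, z₁, z₁', w₁, ha₁, hb₁, hw₁, hw₁'⟩ := (mk_eq hI).1 h
  obtain ⟨u₂, z₂, z₂', w₂, ha₂, hb₂, hw₂, hw₂'⟩ := (mk_eq hI).1 h'
  obtain ⟨ρ, hρ, hρu, hρz⟩ := Same.exists_red hI.sym ((ha₁.symm hI.sym).trans ha₂)
  obtain ⟨ρ', hρ', hρu', hρz'⟩ := Same.exists_red hI.sym ((hb₁.symm hI.sym).trans hb₂)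
  have hca : ¬ Complete nb F u₁ z₁ := fun hc => ha ((ha₁.symm hI.sym).complete hI.sym hc)
  have hcb : ¬ Complete nb F u₁ z₁' := fun hc => hb ((hb₁.symm hI.sym).complete hI.sym hc)
  have he : ρ = ρ' := hI.ii u₁ z₁ z₁' hca hcb ρ ρ' u₂ z₂ z₂' hρ hρ' hρu hρz hρu' hρz'
  subst he
  exact ⟨w₁.reverse ++ (ρ ++ w₂),
    walk_trans (walk_reverse F.sym hw₁) (walk_trans hρz hw₂),
    walk_trans (walk_reverse F.sym hw₁') (walk_trans hρz' hw₂')⟩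

end P089.A
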