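
import Mathlib
import Vale.Agent.Lib.P089.A.Step2

/-!
# P089, Part A: words through several new copies

`Bad hI c t`: the vertex `c` of `Z⁺` is not at position `t` of a copy which meets `Z`.  All other states of
`Z⁺` are complete.
-/

namespace P089.A

variable {S P Z : Type} {nb : Z → S → Option Z} {F : Fam S P} (hI : Inv nb F)

/-- not at position `t` of a copy which meets `Z` -/
def Bad (c : Next nb F hI) (t : P) : Prop := ∀ v x h, c ≠ mk hI v x t h

theorem bad_or_complete (c : Next nb F hI) (t : P) : Bad hI c t ∨ Complete (nbNext hI) F c t := by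
  by_cases h : ∃ v x, ∃ hr : Reach F x t, c = mk hI v x t hr
  · obtain ⟨v, x, hr, rfl⟩ := h
    exact Or.inr (complete_mk hI hr)
  · left
    intro v x hr hc
    exact h ⟨v, x, hr, hc⟩

theorem bad_of_not_complete {c : Next nb F hI} {t : P} (h : ¬ Complete (nbNext hI) F c t) :
    Bad hI c t := (bad_or_complete hI c t).resolve_right h

/-- moves preserve `Bad` -/
theorem Bad.walk {c c' : Next nb F hI} {t t' : P} {p : List S} (h : Bad hI c t)
    (hc : P089.walk (nbNext hI) c p = some c') (ht : P089.walk F.nb t p = some t') : Bad hI c' t' := by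
  intro v x hr hc'
  have h1 : P089.walk F.nb t' p.reverse = some t := walk_reverse F.sym ht
  have h2 : P089.walk (nbNext hI) c' p.reverse = some c := walk_reverse (nbNext_sym hI) hc
  have h3 := walk_mk hI (v := v) hr (hr.walk h1) h1
  rw [← hc', h2] at h3
  exact h v x _ (Option.some.inj h3)

theorem Bad.ne_emb {c : Next nb F hI} {t : P} (h : Bad hI c t) (x₀ : P) (v : Z) :
    c ≠ emb hI x₀ v := by
  intro hc
  exact h v t (Reach.refl F t) (hc.trans (mk_self hI x₀ v t (Reach.refl F t)).symm)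

/-- the copies through a bad vertex are new -/
theorem Bad.not_complete {v : Z} {x y t : P} {hy : Reach F x y} (h : Bad hI (mk hI v x y hy) t) :
    ¬ Complete nb F v x := by
  intro hc
  obtain ⟨u, hu⟩ := mk_of_complete hI x hy hc
  exact h.ne_emb hI x u hu

/-- the position in a copy through the vertex of a bad state is different -/
theorem Bad.ne {v : Z} {x y t : P} {hy : Reach F x y} (h : Bad hI (mk hI v x y hy) t) : y ≠ t := by
  intro he
  subst he
  exact h v x hy rfl

/-- **Lemma M** (three copies `a`, `c`, `b`, the piece `p` readable in `c` and at `t`). -/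
theorem lemM {m m' : Next nb F hI} {t t' : P} {p : List S} (hb : Bad hI m t) (hp : Red p)
    (ht : P089.walk F.nb t p = some t')
    {vc va vb : Z} {xc yc yc' xa ya xb yb : P} {h₁ : Reach F xc yc} {h₂ : Reach F xc yc'}
    {h₃ : Reach F xa ya} {h₄ : Reach F xb yb}
    (hc : m = mk hI vc xc yc h₁) (hpc : P089.walk F.nb yc p = some yc') (hc' : m' = mk hI vc xc yc' h₂)
    (ha : m = mk hI va xa ya h₃) (hb' : m' = mk hI vb xb yb h₄) :
    ∃ p₁ p₂ y₁ y₂, p = p₁ ++ p₂ ∧ P089.walk F.nb ya p₁ = some y₁ ∧ P089.walk F.nb y₂ p₂ = some yb := by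
  have hr1 : Rel nb F vc xc yc va xa ya := (mk_eq hI).1 (hc.symm.trans ha)
  have hr2 : Rel nb F vc xc yc' vb xb yb := (mk_eq hI).1 (hc'.symm.trans hb')
  obtain ⟨u1, z1', z1, w1, s1, s1a, k1, k1a, rw1, c1⟩ := hr1.exists_red
  obtain ⟨u2, z2, z2', w2, s2, s2b, k2, k2b, rw2, c2⟩ := hr2.exists_red
  rcases c1 with ⟨-, e1⟩ | ⟨-, -, l1, -⟩
  · exact ⟨p, [], yc', yb, (List.append_nil p).symm, by rw [← e1]; exact hpc, walk_nil _ _⟩
  rcases c2 with ⟨-, e2⟩ | ⟨-, -, l2, -⟩
  · exact ⟨[], p, ya, yc, rfl, walk_nil _ _, by rw [← e2]; exact hpc⟩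
  have hbc : Bad hI (mk hI vc xc yc h₁) t := by rw [← hc]; exact hb
  have hnc : ¬ Complete nb F vc xc := hbc.not_complete hI
  have hne : yc ≠ t := hbc.ne hI
  have l3 : p.length < F.L yc := (F.lt_of_red hne hp hpc ht).1
  have hS : Same nb F u1 z1' u2 z2 := (s1.symm hI.sym).trans s2
  obtain ⟨ρ, rρ, kρ, kρ'⟩ := hS.exists_red hI.sym
  have hsh : Short nb F u1 z1' := by
    refine (hI.i u1 z1').resolve_left fun hcc => hnc ?_
    exact (s1.symm hI.sym).complete hI.sym hcc
  have l4 : ρ.length < 2 * F.L z1' := hsh ρ u2 z2 rρ kρ kρ'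
  have hL1 : F.L z1' = F.L yc := (F.L_walk k1).symm
  have hL2 : F.L z2 = F.L yc := (F.L_walk kρ').trans hL1
  have hLp := F.L_pos yc
  have k3 : P089.walk F.nb yc w1.reverse = some z1' := walk_reverse F.sym k1
  have heq : Eqv p (w1.reverse ++ (ρ ++ w2)) := by
    refine F.eqv_of_walk hpc (walk_trans k3 (walk_trans kρ' k2)) ?_
    rw [List.length_append, List.length_append, List.length_reverse]
    omega
  rcases exists_tri hp (red_reverse rw1) rρ rw2 heq with
    ⟨P₁, P₂, e, hpre, hsuf⟩ | ⟨P₁, M, P₂, g, k, -, e, e1, -, e3⟩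
  · obtain ⟨q1, hq1⟩ := hpre
    obtain ⟨q2, hq2⟩ := hsuf
    have k4 : P089.walk F.nb ya w1.reverse = some z1 := walk_reverse F.sym k1a
    rw [← hq1] at k4
    obtain ⟨y₁, hy₁, -⟩ := walk_append.1 k4
    rw [← hq2] at k2b
    obtain ⟨y₂, -, hy₂⟩ := walk_append.1 k2b
    exact ⟨P₁, P₂, y₁, y₂, e, hy₁, hy₂⟩
  · exfalso
    rw [e1] at k3
    obtain ⟨y₁, hy₁, hg⟩ := walk_append.1 k3
    have hg' : P089.walk F.nb z1' g.reverse = some y₁ := walk_reverse F.sym hg
    rw [e3] at kρ
    obtain ⟨τ, hτ, -⟩ := walk_append.1 kρ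
    have hSτ : Same nb F vc xc τ y₁ := s1.trans ⟨g.reverse, hτ, hg'⟩
    have hr' : Reach F xc y₁ := h₁.walk hy₁
    have k5 := walk_mk hI (v := vc) h₁ hr' hy₁
    rw [e] at ht
    obtain ⟨t₁, ht₁, -⟩ := walk_append.1 ht
    have hb2 := hbc.walk hI k5 ht₁
    refine hb2.ne_emb hI xc τ ?_
    rw [mk_of_same hI hSτ hr' (Reach.refl F y₁)]
    exact mk_self hI xc τ y₁ (Reach.refl F y₁)

end P089.A
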