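
import Mathlib
import Vale.Agent.Lib.P089.A.LemM

/-!
# P089, Part A: Lemma L
-/

namespace P089.A

variable {S P Z : Type} {nb : Z → S → Option Z} {F : Fam S P} (hI : Inv nb F)

/-- **Lemma L**: a common word of a bad state `(c, t)` is a word of any given copy through its first
vertex followed by a word of any given copy through its last vertex.  (Induction on `p` from the right,
`lemM` for the copy containing the last edge.) -/
theorem lemL {c c' : Next nb F hI} {t t' : P} {p : List S} (hb : Bad hI c t) (hp : Red p)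
    (hc : P089.walk (nbNext hI) c p = some c') (ht : P089.walk F.nb t p = some t')
    {va vb : Z} {xa ya xb yb : P} {h₃ : Reach F xa ya} {h₄ : Reach F xb yb}
    (ha : c = mk hI va xa ya h₃) (hb' : c' = mk hI vb xb yb h₄) :
    ∃ p₁ p₂ y₁ y₂ h₅ h₆, p = p₁ ++ p₂ ∧ P089.walk F.nb ya p₁ = some y₁ ∧ P089.walk F.nb y₂ p₂ = some yb ∧
      P089.walk (nbNext hI) c p₁ = some (mk hI va xa y₁ h₅) ∧ mk hI va xa y₁ h₅ = mk hI vb xb y₂ h₆ := by
  induction p using List.reverseRecOn generalizing c' t' vb xb yb with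
  | nil =>
    rw [walk_nil] at hc
    have e : c = c' := Option.some.inj hc
    exact ⟨[], [], ya, yb, h₃, h₄, rfl, rfl, rfl, by rw [walk_nil, ha], by rw [← ha, ← hb', e]⟩
  | append_singleton q s ih =>
    obtain ⟨c1, hc1, hc2⟩ := walk_append.1 hc
    obtain ⟨t1, ht1, ht2⟩ := walk_append.1 ht
    obtain ⟨c2, hc3, hc4⟩ := walk_cons_iff.1 hc2
    rw [walk_nil] at hc4
    have e2 : c2 = c' := Option.some.inj hc4
    subst e2
    obtain ⟨v, x, y, y₁, hy, hy₁, hs, e3, e4⟩ := (nbNext_iff hI).1 hc3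
    have hq : Red q := (List.isChain_append.1 hp).1
    obtain ⟨q₁, q₂, z₁, z₂, h₅, h₆, eq, k1, k2, k3, k4⟩ := ih hq hc1 ht1 e3
    rw [eq] at ht1
    obtain ⟨t2, ht3, ht4⟩ := walk_append.1 ht1
    have hbad : Bad hI (mk hI va xa z₁ h₅) t2 := hb.walk hI k3 ht3
    have hred : Red (q₂ ++ [s]) := by
      rw [eq, List.append_assoc] at hp
      exact (List.isChain_append.1 hp).2.1
    have hpc : P089.walk F.nb z₂ (q₂ ++ [s]) = some y₁ :=
      walk_trans k2 (walk_cons_iff.2 ⟨y₁, hs, walk_nil _ _⟩)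
    have htt : P089.walk F.nb t2 (q₂ ++ [s]) = some t' := walk_trans ht4 ht2
    obtain ⟨p₁, p₂, w₁, w₂, e5, m1, m2⟩ :=
      lemM hI hbad hred htt k4 hpc e4 (rfl : mk hI va xa z₁ h₅ = mk hI va xa z₁ h₅) hb'
    have r1 : Reach F xa w₁ := h₅.walk m1
    have r2 : Reach F xb w₂ := h₄.walk (walk_reverse F.sym m2)
    have e6 : q ++ [s] = (q₁ ++ p₁) ++ p₂ := by
      rw [eq, List.append_assoc, e5, List.append_assoc]
    have n1 : P089.walk (nbNext hI) c (q₁ ++ p₁) = some (mk hI va xa w₁ r1) :=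
      walk_trans k3 (walk_mk hI h₅ r1 m1)
    refine ⟨q₁ ++ p₁, p₂, w₁, w₂, r1, r2, e6, walk_trans k1 m1, m2, n1, ?_⟩
    have n2 : P089.walk (nbNext hI) (mk hI vb xb w₂ r2) p₂ = some c2 := by
      rw [hb']
      exact walk_mk hI r2 h₄ m2
    rw [e6] at hc
    obtain ⟨c3, n3, n4⟩ := walk_append.1 hc
    rw [n1] at n3
    have e7 : mk hI va xa w₁ r1 = c3 := Option.some.inj n3
    rw [← e7] at n4
    exact walk_inj (nbNext_sym hI) n4 n2

end P089.A
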