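
import Mathlib
import Vale.Agent.Lib.P089.A.LemL
import Vale.Agent.Lib.P089.A.LemK

/-!
# P089, Part A: the induction step, uniqueness
-/

namespace P089.A

variable {S P Z : Type} {nb : Z → S → Option Z} {F : Fam S P} (hI : Inv nb F)

/-- uniqueness of common words of two bad states at the same vertex -/
theorem ii_step {c c' : Next nb F hI} {t t' : P} (h : Bad hI c t) (h' : Bad hI c t')
    {w w' : List S} {y y' : P} (hw : Red w) (hw' : Red w') (hc : walk (nbNext hI) c w = some c')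
    (ht : walk F.nb t w = some y) (hc' : walk (nbNext hI) c w' = some c')
    (ht' : walk F.nb t' w' = some y') : w = w' := by
  obtain ⟨va, xa, ya, h₃, ha⟩ := exists_mk hI c
  obtain ⟨vb, xb, yb, h₄, hb⟩ := exists_mk hI c'
  obtain ⟨p₁, p₂, y₁, y₂, h₅, h₆, e, f₁, f₂, f₃, f₄⟩ := lemL hI h hw hc ht ha hb
  obtain ⟨q₁, q₂, z₁, z₂, h₇, h₈, e', g₁, g₂, g₃, g₄⟩ := lemL hI h' hw' hc' ht' ha hb
  have hBa : Bad hI (mk hI va xa ya h₃) t := ha ▸ h
  have hBa' : Bad hI (mk hI va xa ya h₃) t' := ha ▸ h'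
  have hBb : Bad hI (mk hI vb xb yb h₄) y := hb ▸ Bad.walk hI h hc ht
  have hna : ¬ Complete nb F va xa := Bad.not_complete hI hBa
  have hnb : ¬ Complete nb F vb xb := Bad.not_complete hI hBb
  have hya : ya ≠ t := Bad.ne hI hBa
  have hya' : ya ≠ t' := Bad.ne hI hBa'
  have hL : 1 ≤ F.L ya := F.L_pos ya
  subst e
  subst e'
  obtain ⟨t₁, ht₁, ht₂⟩ := walk_append.1 ht
  obtain ⟨s₁, hs₁, hs₂⟩ := walk_append.1 ht'
  have hp₁ : Red p₁ := List.IsChain.left_of_append hw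
  have hp₂ : Red p₂ := List.IsChain.right_of_append hw
  have hq₁ : Red q₁ := List.IsChain.left_of_append hw'
  have hq₂ : Red q₂ := List.IsChain.right_of_append hw'
  by_cases hy : y₁ = y₂
  · subst hy
    have hR := (mk_eq hI).1 f₄
    obtain ⟨u, z, z', k, k₁, k₂, k₃, k₄⟩ := hR
    have hzz : z = z' := walk_inj F.sym k₃ k₄
    subst hzz
    have hS : Same nb F va xa vb xb := Same.trans k₁ (Same.symm hI.sym k₂)
    have hz : z₁ = z₂ := Rel.inj hI hS ((mk_eq hI).1 g₄)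
    subst hz
    have w₁ : walk F.nb ya (p₁ ++ p₂) = some yb := walk_trans f₁ f₂
    have w₂ : walk F.nb ya (q₁ ++ q₂) = some yb := walk_trans g₁ g₂
    have l₁ := (F.lt_of_red hya hw w₁ ht).1
    have l₂ := (F.lt_of_red hya' hw' w₂ ht').1
    exact Eqv.eq hw hw' (F.eqv_of_walk w₁ w₂ (by omega))
  · obtain ⟨k, hk₁, hk₂⟩ := lemK hI hna hnb f₄ g₄
    obtain ⟨lk₁, lk₂⟩ := F.red_lt hy hk₁ hk₂
    have hk₁' := walk_red F.sym hk₁
    have hk₂' := walk_red F.sym hk₂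
    have l₁ := (F.lt_of_red hya hp₁ f₁ ht₁).1
    have l₂ := (F.lt_of_red hya' hq₁ g₁ hs₁).1
    have hB₁ : Bad hI (mk hI vb xb y₂ h₆) t₁ := f₄ ▸ Bad.walk hI h f₃ ht₁
    have hB₂ : Bad hI (mk hI vb xb z₂ h₈) s₁ := g₄ ▸ Bad.walk hI h' g₃ hs₁
    have l₃ := (F.lt_of_red (Bad.ne hI hB₁) hp₂ f₂ ht₂).1
    have l₄ := (F.lt_of_red (Bad.ne hI hB₂) hq₂ g₂ hs₂).1
    have L₁ : F.L y₁ = F.L ya := F.L_walk f₁
    have L₂ : F.L z₂ = F.L y₂ := F.L_walk hk₂
    have hL2 : 1 ≤ F.L y₂ := F.L_pos y₂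
    have E₁ : Eqv (p₁ ++ red k) q₁ := F.eqv_of_walk (walk_trans f₁ hk₁') g₁ (by
      rw [List.length_append]
      omega)
    have E₂ : Eqv (red k ++ q₂) p₂ := F.eqv_of_walk (walk_trans hk₂' g₂) f₂ (by
      rw [List.length_append]
      omega)
    have E₃ : Eqv (p₁ ++ p₂) (q₁ ++ q₂) :=
      ((Eqv.refl p₁).append E₂.symm).trans (by
        rw [← List.append_assoc]
        exact E₁.append (Eqv.refl q₂))
    exact Eqv.eq hw hw' E₃

end P089.A
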