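
import Mathlib
import Vale.Agent.Lib.P089.A.LemL

/-!
# P089, Part A: the induction step, short words
-/

namespace P089.A

variable {S P Z : Type} {nb : Z → S → Option Z} {F : Fam S P} (hI : Inv nb F)

/-- `|p| < 2 L`: `lemL` and the small cancellation condition twice -/
theorem short_step {c : Next nb F hI} {t : P} (h : Bad hI c t) : Short (nbNext hI) F c t := by
  intro w u y hw hu hy
  obtain ⟨va, xa, ya, h₃, ha⟩ := exists_mk hI c
  obtain ⟨vb, xb, yb, h₄, hb⟩ := exists_mk hI u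
  obtain ⟨p₁, p₂, y₁, y₂, h₅, h₆, hp, hw₁, hw₂, hc₁, he⟩ := lemL hI h hw hu hy ha hb
  subst hp
  obtain ⟨t₁, ht₁, ht₂⟩ := walk_append.1 hy
  have hr : List.IsChain (· ≠ ·) (p₁ ++ p₂) := hw
  have hr₁ : Red p₁ := hr.left_of_append
  have hr₂ : Red p₂ := hr.right_of_append
  have hn₁ : ya ≠ t := by
    rw [ha] at h
    exact h.ne
  have hB : Bad hI (mk hI vb xb y₂ h₆) t₁ := by
    rw [← he]
    exact h.walk hI hc₁ ht₁
  have hn₂ : y₂ ≠ t₁ := hB.ne
  have l₁ := (F.lt_of_red hn₁ hr₁ hw₁ ht₁).2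
  have l₂ := (F.lt_of_red hn₂ hr₂ hw₂ ht₂).2
  rw [F.L_walk ht₁] at l₂
  rw [List.length_append]
  omega

end P089.A
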