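
import Mathlib
import Vale.Agent.Lib.P089.A.ShortStep
import Vale.Agent.Lib.P089.A.IIStep

/-!
# P089, Part A: the induction step, conclusion
-/

namespace P089.A

variable {S P Z : Type} {nb : Z → S → Option Z} {F : Fam S P} (hI : Inv nb F)

theorem inv_step : Inv (nbNext hI) F where
  sym := nbNext_sym hI
  i := fun c t => (bad_or_complete hI c t).elim (fun h => Or.inr (short_step hI h)) Or.inl
  ii := fun _ _ _ h h' _ _ _ _ _ hw hw' h₁ h₂ h₃ h₄ =>
    ii_step hI (bad_of_not_complete hI h) (bad_of_not_complete hI h') hw hw' h₁ h₂ h₃ h₄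

end P089.A
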