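
import Mathlib
import Vale.Agent.Lib.P089.A.InvStep

/-!
# P089, Part A: the stages `Z_0, Z_1, ...` and reading words from the base point
-/

namespace P089.A

variable {S P : Type}

/-- a stage of the construction -/
structure Stage (F : Fam S P) where
  Z : Type
  nb : Z → S → Option Z
  e : Z
  inv : Inv nb F

theorem stage_walk_none {v u : Unit} {w : List S}
    (h : walk (fun (_ : Unit) (_ : S) => (none : Option Unit)) v w = some u) : w = [] := by
  cases w with
  | nil => rfl
  | cons s w =>
    obtain ⟨y, hy, _⟩ := walk_cons_iff.1 h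
    exact absurd hy (by simp)

theorem inv_zero (F : Fam S P) : Inv (fun (_ : Unit) (_ : S) => (none : Option Unit)) F := by
  refine ⟨?_, ?_, ?_⟩
  · intro x s y h
    exact absurd h (by simp)
  · intro v x
    right
    intro w u y _ h _
    rw [stage_walk_none h]
    have := F.L_pos x
    simp only [List.length_nil]
    omega
  · intro v x x' _ _ w w' u y y' _ _ h _ h' _
    rw [stage_walk_none h, stage_walk_none h']

/-- the next stage -/
noncomputable def Stage.next {F : Fam S P} (x₀ : P) (A : Stage F) : Stage F where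
  Z := Next A.nb F A.inv
  nb := nbNext A.inv
  e := emb A.inv x₀ A.e
  inv := inv_step A.inv

/-- the stages -/
noncomputable def stage (F : Fam S P) (x₀ : P) : ℕ → Stage F
  | 0 => ⟨Unit, fun _ _ => none, (), inv_zero F⟩
  | k + 1 => (stage F x₀ k).next x₀

variable (F : Fam S P) (x₀ : P)

/-- reading a word from the base point -/
noncomputable def rd (k : ℕ) (w : List S) : Option (stage F x₀ k).Z :=
  walk (stage F x₀ k).nb (stage F x₀ k).e w

/-- the embedding of a stage into the next one -/
noncomputable def up (k : ℕ) (v : (stage F x₀ k).Z) : (stage F x₀ (k + 1)).Z :=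
  emb (stage F x₀ k).inv x₀ v

theorem up_injective (k : ℕ) : Function.Injective (up F x₀ k) :=
  emb_injective (stage F x₀ k).inv x₀

theorem rd_nil (k : ℕ) : rd F x₀ k [] = some (stage F x₀ k).e := rfl

theorem rd_succ {k : ℕ} {w : List S} {v : (stage F x₀ k).Z} (h : rd F x₀ k w = some v) :
    rd F x₀ (k + 1) w = some (up F x₀ k v) :=
  walk_map (nb := (stage F x₀ k).nb) (nb' := (stage F x₀ (k + 1)).nb) (up F x₀ k)
    (fun _ _ _ h' => emb_edge (stage F x₀ k).inv x₀ h') h

/-- the embedding of a stage into a later one -/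
theorem stage_exists_map {k l : ℕ} (hkl : k ≤ l) :
    ∃ f : (stage F x₀ k).Z → (stage F x₀ l).Z, Function.Injective f ∧
      ∀ w v, rd F x₀ k w = some v → rd F x₀ l w = some (f v) := by
  induction l, hkl using Nat.le_induction with
  | base => exact ⟨id, Function.injective_id, fun w v h => h⟩
  | succ l _ ih =>
    obtain ⟨f, h1, h2⟩ := ih
    exact ⟨up F x₀ l ∘ f, (up_injective F x₀ l).comp h1, fun w v h => rd_succ F x₀ (h2 w v h)⟩

theorem rd_isSome_mono {k l : ℕ} (hkl : k ≤ l) {w : List S} (h : (rd F x₀ k w).isSome) :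
    (rd F x₀ l w).isSome := by
  obtain ⟨f, _, h2⟩ := stage_exists_map F x₀ hkl
  obtain ⟨v, hv⟩ := Option.isSome_iff_exists.1 h
  rw [h2 w v hv]
  rfl

/-- words with the same end at stage `k` have the same end at all later stages -/
theorem rd_eq_mono {k l : ℕ} (hkl : k ≤ l) {w w' : List S} {v : (stage F x₀ k).Z}
    (h : rd F x₀ k w = some v) (h' : rd F x₀ k w' = some v) :
    rd F x₀ l w = rd F x₀ l w' := by
  obtain ⟨f, _, h2⟩ := stage_exists_map F x₀ hkl
  rw [h2 w v h, h2 w' v h']

/-- readable words with the same end at a later stage have the same end at stage `k` -/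
theorem rd_eq_back {k l : ℕ} (hkl : k ≤ l) {w w' : List S} {v v' : (stage F x₀ k).Z}
    (h : rd F x₀ k w = some v) (h' : rd F x₀ k w' = some v')
    (he : rd F x₀ l w = rd F x₀ l w') : v = v' := by
  obtain ⟨f, h1, h2⟩ := stage_exists_map F x₀ hkl
  rw [h2 w v h, h2 w' v' h'] at he
  exact h1 (Option.some.inj he)

theorem rd_length (w : List S) : (rd F x₀ w.length w).isSome := by
  induction w using List.reverseRecOn with
  | nil => rfl
  | append_singleton w s ih =>
    obtain ⟨v, hv⟩ := Option.isSome_iff_exists.1 ih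
    have h1 := rd_succ F x₀ hv
    obtain ⟨c, hc⟩ := exists_nb_emb (stage F x₀ w.length).inv x₀ v s
    rw [List.length_append, List.length_singleton]
    have h2 : rd F x₀ (w.length + 1) (w ++ [s]) = some c :=
      walk_append.2 ⟨_, h1, walk_cons_iff.2 ⟨c, hc, rfl⟩⟩
    rw [h2]
    rfl

theorem rd_surj (k : ℕ) (v : (stage F x₀ k).Z) : ∃ w, rd F x₀ k w = some v := by
  induction k with
  | zero => exact ⟨[], rfl⟩
  | succ k ih =>
    obtain ⟨u, x, y, h, hv⟩ := exists_mk (stage F x₀ k).inv v
    obtain ⟨w, hw⟩ := ih u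
    obtain ⟨w', hw'⟩ := id h
    have h1 := rd_succ F x₀ hw
    have h2 := walk_mk (stage F x₀ k).inv (v := u) (Reach.refl F x) h hw'
    rw [mk_self (stage F x₀ k).inv x₀] at h2
    refine ⟨w ++ w', ?_⟩
    rw [hv]
    exact walk_append.2 ⟨_, h1, h2⟩

/-- the first stage has only the base point -/
theorem rd_zero {w : List S} (h : (rd F x₀ 0 w).isSome) : w = [] := by
  obtain ⟨v, hv⟩ := Option.isSome_iff_exists.1 h
  exact stage_walk_none (v := ()) (u := v) hv

end P089.A
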