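
import Mathlib
import Vale.Agent.Lib.P089.A.Stage

/-!
# P089, Part A: the stages, part 2
-/

namespace P089.A

variable {S P : Type} (F : Fam S P) (x₀ : P)

/-- the states at old vertices are complete -/
theorem complete_up (k : ℕ) (v : (stage F x₀ k).Z) (x : P) :
    Complete (stage F x₀ (k + 1)).nb F (up F x₀ k v) x :=
  complete_emb (stage F x₀ k).inv x₀ v x

/-- a state of stage `k + 1` is in a copy which meets stage `k`, or it is short -/
theorem meets_or_short (k : ℕ) (c : (stage F x₀ (k + 1)).Z) (t : P) :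
    (∃ v x, Same (stage F x₀ (k + 1)).nb F c t (up F x₀ k v) x) ∨
      Short (stage F x₀ (k + 1)).nb F c t := by
  by_cases hm : ∃ v x, ∃ h : Reach F x t, c = mk (stage F x₀ k).inv v x t h
  · obtain ⟨v, x, ⟨w, hw⟩, hc⟩ := hm
    refine Or.inl ⟨v, x, w.reverse, ?_, walk_reverse F.sym hw⟩
    have h₁ := walk_mk (stage F x₀ k).inv (v := v) (⟨w, hw⟩ : Reach F x t) (Reach.refl F x)
      (walk_reverse F.sym hw)
    rw [mk_self (stage F x₀ k).inv x₀] at h₁
    rw [hc]
    exact h₁
  · refine Or.inr (short_step (stage F x₀ k).inv ?_)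
    intro v x h he
    exact hm ⟨v, x, h, he⟩

theorem short_zero (c : (stage F x₀ 0).Z) (t : P) : Short (stage F x₀ 0).nb F c t := by
  intro w u y _ hw _
  cases w with
  | nil =>
    have := F.L_pos t
    simp only [List.length_nil]
    omega
  | cons s w =>
    obtain ⟨z, hz, -⟩ := walk_cons_iff.1 hw
    exact absurd hz (by simp [stage])

theorem Stage2_mk (k : ℕ) {v : (stage F x₀ k).Z} {x y : P} {c : (stage F x₀ (k + 1)).Z} {a : List S}
    (ha : walk (stage F x₀ (k + 1)).nb (up F x₀ k v) a = some c) (hx : walk F.nb x a = some y) :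
    c = mk (stage F x₀ k).inv v x y ⟨a, hx⟩ := by
  have h₁ := walk_mk (stage F x₀ k).inv (v := v) (Reach.refl F x) (⟨a, hx⟩ : Reach F x y) hx
  rw [mk_self (stage F x₀ k).inv x₀] at h₁
  have h₂ : some c = some (mk (stage F x₀ k).inv v x y ⟨a, hx⟩) := ha.symm.trans h₁
  exact Option.some.inj h₂

/-- two copies which meet stage `k` at the states `(v, x)` and `(v', x')` and have a common vertex `c` of
stage `k + 1` with different positions `y`, `y'`: then `y` is at distance `< L` from a position `z` which is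
joined to `(v, x)` within stage `k`. -/
theorem common_vertex (k : ℕ) {v v' : (stage F x₀ k).Z} {x x' y y' : P}
    {c : (stage F x₀ (k + 1)).Z} {a a' : List S} (hne : y ≠ y')
    (ha : walk (stage F x₀ (k + 1)).nb (up F x₀ k v) a = some c) (hx : walk F.nb x a = some y)
    (ha' : walk (stage F x₀ (k + 1)).nb (up F x₀ k v') a' = some c)
    (hx' : walk F.nb x' a' = some y') :
    ∃ u z w, Same (stage F x₀ k).nb F v x u z ∧ w.length < F.L z ∧ walk F.nb z w = some y := by
  have h₁ := (Stage2_mk F x₀ k ha hx).symm.trans (Stage2_mk F x₀ k ha' hx')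
  obtain ⟨u, z, z', w, h₂, -, h₃, -, -, h₄⟩ := ((mk_eq (stage F x₀ k).inv).1 h₁).exists_red
  rcases h₄ with ⟨-, h₄⟩ | ⟨-, -, h₄, -⟩
  · exact absurd h₄ hne
  · exact ⟨u, z, w, h₂, h₄, h₃⟩

end P089.A
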