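
import Mathlib
import Vale.Agent.Lib.P089.A.Stage2

/-!
# P089, Part A: the limit `Lim` of the stages

The vertices of the limit are words modulo: same end in some stage.
-/

namespace P089.A

variable {S P : Type} (F : Fam S P) (x₀ : P)

theorem Limit_trans {w w' w'' : List S}
    (h : ∃ k v, rd F x₀ k w = some v ∧ rd F x₀ k w' = some v)
    (h' : ∃ k v, rd F x₀ k w' = some v ∧ rd F x₀ k w'' = some v) :
    ∃ k v, rd F x₀ k w = some v ∧ rd F x₀ k w'' = some v := by
  obtain ⟨k, v, h1, h2⟩ := h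
  obtain ⟨l, v', h3, h4⟩ := h'
  have h5 := rd_eq_mono F x₀ (le_max_left k l) h1 h2
  have h6 := rd_eq_mono F x₀ (le_max_right k l) h3 h4
  have h7 : (rd F x₀ (max k l) w).isSome :=
    rd_isSome_mono F x₀ (le_max_left k l) (by rw [h1]; rfl)
  obtain ⟨z, hz⟩ := Option.isSome_iff_exists.1 h7
  exact ⟨max k l, z, hz, by rw [← h6, ← h5, hz]⟩

/-- appending a word -/
theorem Limit_append {w w' : List S} (h : ∃ k v, rd F x₀ k w = some v ∧ rd F x₀ k w' = some v)
    (s : List S) : ∃ k v, rd F x₀ k (w ++ s) = some v ∧ rd F x₀ k (w' ++ s) = some v := by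
  obtain ⟨k, v, h1, h2⟩ := h
  have h5 := rd_eq_mono F x₀ (le_max_left k (w ++ s).length) h1 h2
  have h7 : (rd F x₀ (max k (w ++ s).length) (w ++ s)).isSome :=
    rd_isSome_mono F x₀ (le_max_right k _) (rd_length F x₀ _)
  obtain ⟨z, hz⟩ := Option.isSome_iff_exists.1 h7
  refine ⟨_, z, hz, ?_⟩
  obtain ⟨y, hy, hyz⟩ := walk_append.1 hz
  refine walk_append.2 ⟨y, ?_, hyz⟩
  have h8 : rd F x₀ (max k (w ++ s).length) w = some y := hy
  rw [h5] at h8
  exact h8

/-- two words are equivalent if they have the same end in some stage -/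
def limSetoid : Setoid (List S) where
  r w w' := ∃ k v, rd F x₀ k w = some v ∧ rd F x₀ k w' = some v
  iseqv := by
    refine ⟨fun w => ?_, ?_, ?_⟩
    · obtain ⟨v, hv⟩ := Option.isSome_iff_exists.1 (rd_length F x₀ w)
      exact ⟨_, v, hv, hv⟩
    · rintro w w' ⟨k, v, h, h'⟩
      exact ⟨k, v, h', h⟩
    · intro w w' w'' h h'
      exact Limit_trans F x₀ h h'

/-- the vertices of the limit -/
def Lim : Type := Quotient (limSetoid F x₀)

/-- the vertex of a word -/
def lmk (w : List S) : Lim F x₀ := Quotient.mk (limSetoid F x₀) w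

theorem lmk_eq {w w' : List S} : lmk F x₀ w = lmk F x₀ w' ↔
    ∃ k v, rd F x₀ k w = some v ∧ rd F x₀ k w' = some v := by
  exact ⟨fun h => Quotient.exact h, fun h => Quotient.sound h⟩

/-- the colours act on the limit -/
noncomputable def lact (v : Lim F x₀) (s : S) : Lim F x₀ := lmk F x₀ (v.out ++ [s])

theorem lact_mk (w : List S) (s : S) : lact F x₀ (lmk F x₀ w) s = lmk F x₀ (w ++ [s]) := by
  have h1 : lmk F x₀ (Quotient.out (lmk F x₀ w)) = lmk F x₀ w := Quotient.out_eq _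
  rw [lmk_eq] at h1
  show lmk F x₀ (Quotient.out (lmk F x₀ w) ++ [s]) = lmk F x₀ (w ++ [s])
  rw [lmk_eq]
  exact Limit_append F x₀ h1 [s]

theorem go_mk (u w : List S) : go (lact F x₀) (lmk F x₀ u) w = lmk F x₀ (u ++ w) := by
  induction w generalizing u with
  | nil =>
    rw [List.append_nil]
    rfl
  | cons s w ih =>
    show go (lact F x₀) (lact F x₀ (lmk F x₀ u) s) w = lmk F x₀ (u ++ s :: w)
    rw [lact_mk, ih, List.append_assoc]
    rfl

theorem lact_lact (v : Lim F x₀) (s : S) : lact F x₀ (lact F x₀ v s) s = v := by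
  obtain ⟨w, rfl⟩ : ∃ w, lmk F x₀ w = v := ⟨Quotient.out v, Quotient.out_eq v⟩
  rw [lact_mk, lact_mk, lmk_eq]
  obtain ⟨z, hz⟩ := Option.isSome_iff_exists.1 (rd_length F x₀ (w ++ [s] ++ [s]))
  refine ⟨_, z, hz, ?_⟩
  obtain ⟨y, hy, hyz⟩ := walk_append.1 hz
  obtain ⟨x, hx, hxy⟩ := walk_append.1 hy
  obtain ⟨y1, h1, h2⟩ := walk_cons_iff.1 hxy
  obtain ⟨z1, h3, h4⟩ := walk_cons_iff.1 hyz
  rw [walk_nil] at h2 h4
  obtain rfl := Option.some.inj h2
  obtain rfl := Option.some.inj h4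
  have h5 := (stage F x₀ (w ++ [s] ++ [s]).length).inv.sym _ _ _ h1
  rw [h5] at h3
  obtain rfl := Option.some.inj h3
  exact hx

end P089.A
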