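
import Mathlib
import Vale.Agent.Lib.P089.A.Limit

/-!
# P089, Part A: the limit, part 2
-/

namespace P089.A

variable {S P : Type} (F : Fam S P) (x₀ : P)

/-- a stage is contained in the limit -/
noncomputable def inc (k : ℕ) (v : (stage F x₀ k).Z) : Lim F x₀ :=
  lmk F x₀ (rd_surj F x₀ k v).choose

theorem inc_rd {k : ℕ} {w : List S} {v : (stage F x₀ k).Z} (h : rd F x₀ k w = some v) :
    inc F x₀ k v = lmk F x₀ w := by
  unfold inc
  exact (lmk_eq F x₀).2 ⟨k, v, (rd_surj F x₀ k v).choose_spec, h⟩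

theorem inc_injective (k : ℕ) : Function.Injective (inc F x₀ k) := by
  intro v v' hv
  obtain ⟨w, hw⟩ := rd_surj F x₀ k v
  obtain ⟨w', hw'⟩ := rd_surj F x₀ k v'
  rw [inc_rd F x₀ hw, inc_rd F x₀ hw', lmk_eq] at hv
  obtain ⟨l, u, hu, hu'⟩ := hv
  exact rd_eq_back F x₀ (le_max_left k l) hw hw'
    (rd_eq_mono F x₀ (le_max_right k l) hu hu')

theorem inc_up (k : ℕ) (v : (stage F x₀ k).Z) : inc F x₀ (k + 1) (up F x₀ k v) = inc F x₀ k v := by
  obtain ⟨w, hw⟩ := rd_surj F x₀ k v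
  rw [inc_rd F x₀ hw, inc_rd F x₀ (rd_succ F x₀ hw)]

theorem inc_mono {k l : ℕ} (hkl : k ≤ l) (v : (stage F x₀ k).Z) : ∃ u, inc F x₀ l u = inc F x₀ k v := by
  obtain ⟨w, hw⟩ := rd_surj F x₀ k v
  obtain ⟨u, hu⟩ := Option.isSome_iff_exists.1
    (rd_isSome_mono F x₀ hkl (Option.isSome_iff_exists.2 ⟨v, hw⟩))
  exact ⟨u, by rw [inc_rd F x₀ hu, inc_rd F x₀ hw]⟩

theorem exists_inc (v : Lim F x₀) : ∃ k u, inc F x₀ k u = v := by
  obtain ⟨w, rfl⟩ : ∃ w, lmk F x₀ w = v := Quotient.exists_rep v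
  obtain ⟨u, hu⟩ := Option.isSome_iff_exists.1 (rd_length F x₀ w)
  exact ⟨w.length, u, inc_rd F x₀ hu⟩

theorem inc_walk {k : ℕ} {v u : (stage F x₀ k).Z} {a : List S}
    (h : walk (stage F x₀ k).nb v a = some u) :
    go (lact F x₀) (inc F x₀ k v) a = inc F x₀ k u := by
  obtain ⟨w, hw⟩ := rd_surj F x₀ k v
  have hwa : rd F x₀ k (w ++ a) = some u := walk_trans hw h
  rw [inc_rd F x₀ hw, inc_rd F x₀ hwa, go_mk]

/-- all states are complete in the limit -/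
theorem lfull {v : Lim F x₀} {x y y' : P} {w w' : List S} (h : walk F.nb x w = some y)
    (h' : walk F.nb x w' = some y') :
    go (lact F x₀) v w = go (lact F x₀) v w' ↔ y = y' := by
  obtain ⟨k, u, rfl⟩ := exists_inc F x₀ v
  obtain ⟨hc, hc'⟩ := complete_up F x₀ k u x
  obtain ⟨u₁, hu₁⟩ := hc w y h
  obtain ⟨u₂, hu₂⟩ := hc w' y' h'
  rw [← inc_up F x₀ k u, inc_walk F x₀ hu₁, inc_walk F x₀ hu₂, ← hc' w w' y y' h h', hu₁, hu₂,
    (inc_injective F x₀ (k + 1)).eq_iff, Option.some_inj]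

end P089.A
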