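
import Mathlib
import Vale.Agent.Lib.P089.A.Limit2

/-!
# P089, Part A: level and centre of a copy, peeling
-/

namespace P089.A

open scoped Classical

variable {S P : Type} (F : Fam S P) (x₀ : P)

/-- the states of a copy -/
def cop (v : Lim F x₀) (x : P) : Set (Lim F x₀ × P) :=
  {p | ∃ a, walk F.nb x a = some p.2 ∧ go (lact F x₀) v a = p.1}

private theorem Level_go_append (v : Lim F x₀) (w w' : List S) :
    go (lact F x₀) v (w ++ w') = go (lact F x₀) (go (lact F x₀) v w) w' :=
  List.foldl_append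

private theorem Level_go_reverse (v : Lim F x₀) (w : List S) :
    go (lact F x₀) (go (lact F x₀) v w) w.reverse = v := by
  induction w using List.reverseRecOn with
  | nil => rfl
  | append_singleton w s ih =>
    rw [Level_go_append, List.reverse_append, Level_go_append]
    change go (lact F x₀) (lact F x₀ (lact F x₀ (go (lact F x₀) v w) s) s) w.reverse = v
    rw [lact_lact, ih]

theorem cop_move {v : Lim F x₀} {x y : P} {a : List S} (h : walk F.nb x a = some y) :
    cop F x₀ (go (lact F x₀) v a) y = cop F x₀ v x := by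
  ext p
  constructor
  · rintro ⟨b, hb, hb'⟩
    refine ⟨a ++ b, walk_trans h hb, ?_⟩
    rw [Level_go_append]
    exact hb'
  · rintro ⟨b, hb, hb'⟩
    refine ⟨a.reverse ++ b, walk_trans (walk_reverse F.sym h) hb, ?_⟩
    rw [Level_go_append, Level_go_reverse]
    exact hb'

private theorem Level_nonempty (v : Lim F x₀) (x : P) :
    {i | ∃ u z, (inc F x₀ i u, z) ∈ cop F x₀ v x}.Nonempty := by
  obtain ⟨k, u, hu⟩ := exists_inc F x₀ v
  exact ⟨k, u, x, [], rfl, hu.symm⟩

/-- the first stage which meets the copy -/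
noncomputable def lvl (C : Set (Lim F x₀ × P)) : ℕ := sInf {i | ∃ u z, (inc F x₀ i u, z) ∈ C}

/-- a position of the copy over this stage -/
noncomputable def cen (C : Set (Lim F x₀ × P)) : P :=
  if h : ∃ z u, (inc F x₀ (lvl F x₀ C) u, z) ∈ C then h.choose else x₀

theorem cen_spec (v : Lim F x₀) (x : P) :
    ∃ u, (inc F x₀ (lvl F x₀ (cop F x₀ v x)) u, cen F x₀ (cop F x₀ v x)) ∈ cop F x₀ v x := by
  have h : ∃ z u, (inc F x₀ (lvl F x₀ (cop F x₀ v x)) u, z) ∈ cop F x₀ v x := by
    obtain ⟨u, z, h⟩ := Nat.sInf_mem (Level_nonempty F x₀ v x)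
    exact ⟨z, u, h⟩
  unfold cen
  rw [dif_pos h]
  exact h.choose_spec

/-- minimality -/
theorem not_mem_of_lt (v : Lim F x₀) (x : P) {i : ℕ} (h : i < lvl F x₀ (cop F x₀ v x))
    (u : (stage F x₀ i).Z) (z : P) : (inc F x₀ i u, z) ∉ cop F x₀ v x :=
  fun hm => Nat.notMem_of_lt_sInf h ⟨u, z, hm⟩

theorem lvl_base (x : P) : lvl F x₀ (cop F x₀ (lmk F x₀ []) x) = 0 :=
  Nat.le_zero.mp (Nat.sInf_le ⟨(stage F x₀ 0).e, x, [], rfl,
    (inc_rd F x₀ (rd_nil F x₀ 0)).symm⟩)

end P089.A
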