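
import Mathlib
import Vale.Agent.Lib.P089.A.Level

/-!
# P089, Part A: peeling
-/

namespace P089.A

open scoped Classical

variable {S P : Type} (F : Fam S P) (x₀ : P)

theorem Level2_go_reverse (v : Lim F x₀) (a : List S) :
    go (lact F x₀) (go (lact F x₀) v a) a.reverse = v := by
  induction a generalizing v with
  | nil => rfl
  | cons s a ih =>
    have h1 : go (lact F x₀) v (s :: a) = go (lact F x₀) (lact F x₀ v s) a := rfl
    have h2 : ∀ u, go (lact F x₀) u ((s :: a).reverse) = lact F x₀ (go (lact F x₀) u a.reverse) s := by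
      intro u
      simp [go, List.foldl_append]
    rw [h2, h1, ih, lact_lact]

theorem Level2_go_append (v : Lim F x₀) (a b : List S) :
    go (lact F x₀) v (a ++ b) = go (lact F x₀) (go (lact F x₀) v a) b := by
  simp [go, List.foldl_append]

theorem Level2_short (v : Lim F x₀) (x : P) : ∀ i, lvl F x₀ (cop F x₀ v x) = i →
    ∀ (u : (stage F x₀ i).Z) (z : P), (inc F x₀ i u, z) ∈ cop F x₀ v x →
      Short (stage F x₀ i).nb F u z := by
  intro i hi u z h
  cases i with
  | zero => exact short_zero F x₀ u z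
  | succ k =>
    rcases meets_or_short F x₀ k u z with ⟨v', x', a, ha, hx⟩ | hS
    · exfalso
      obtain ⟨b, hb, hgo⟩ := h
      have h1 : go (lact F x₀) (inc F x₀ (k + 1) u) a = inc F x₀ k v' := by
        rw [inc_walk F x₀ ha, inc_up]
      refine not_mem_of_lt F x₀ v x (i := k) (by omega) v' x' ⟨b ++ a, ?_, ?_⟩
      · exact walk_trans hb hx
      · rw [Level2_go_append, hgo]
        exact h1
    · exact hS

/-- the copy of level `i` is short in stage `i` -/
theorem short_cen (v : Lim F x₀) (x : P) {u : (stage F x₀ (lvl F x₀ (cop F x₀ v x))).Z} {z : P}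
    (h : (inc F x₀ _ u, z) ∈ cop F x₀ v x) :
    Short (stage F x₀ (lvl F x₀ (cop F x₀ v x))).nb F u z :=
  Level2_short F x₀ v x _ rfl u z h

/-- peeling -/
theorem peel_aux (v : Lim F x₀) (x y : P) (hne : x ≠ y)
    (h : lvl F x₀ (cop F x₀ v y) ≤ lvl F x₀ (cop F x₀ v x)) :
    ∃ w, w.length ≤ 3 * F.L x ∧ walk F.nb (cen F x₀ (cop F x₀ v x)) w = some x := by
  obtain ⟨u, hu⟩ := cen_spec F x₀ v x
  obtain ⟨u₁, hu₁⟩ := cen_spec F x₀ v y
  obtain ⟨u', hu'⟩ := inc_mono F x₀ h u₁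
  rw [← hu'] at hu₁
  have hsh := short_cen F x₀ v x hu
  obtain ⟨a, ha, hga⟩ := hu
  obtain ⟨b, hb, hgb⟩ := hu₁
  have ha' := walk_reverse F.sym ha
  have hb' := walk_reverse F.sym hb
  obtain ⟨c, hc⟩ := (complete_up F x₀ _ u (cen F x₀ (cop F x₀ v x))).1 _ _ ha'
  obtain ⟨c', hc'⟩ := (complete_up F x₀ _ u' (cen F x₀ (cop F x₀ v y))).1 _ _ hb'
  have e1 : inc F x₀ _ c = v := by
    rw [← inc_walk F x₀ hc, inc_up]
    have : inc F x₀ (lvl F x₀ (cop F x₀ v x)) u = go (lact F x₀) v a := hga.symm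
    rw [this, Level2_go_reverse]
  have e2 : inc F x₀ _ c' = v := by
    rw [← inc_walk F x₀ hc', inc_up]
    have : inc F x₀ (lvl F x₀ (cop F x₀ v x)) u' = go (lact F x₀) v b := hgb.symm
    rw [this, Level2_go_reverse]
  have e3 : c' = c := inc_injective F x₀ _ (e2.trans e1.symm)
  rw [e3] at hc'
  obtain ⟨u₂, z₂, w, hS, hw, hwx⟩ := common_vertex F x₀ _ hne hc ha' hc' hb'
  have hLz : F.L z₂ = F.L (cen F x₀ (cop F x₀ v x)) := hS.L_eq
  obtain ⟨a₁, hr, ha1, ha2⟩ := Same.exists_red (stage F x₀ _).inv.sym hS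
  have h2 : a₁.length < 2 * F.L (cen F x₀ (cop F x₀ v x)) := hsh a₁ _ _ hr ha1 ha2
  have hLx : F.L x = F.L z₂ := F.L_walk hwx
  refine ⟨a₁ ++ w, ?_, walk_trans ha2 hwx⟩
  rw [List.length_append]
  omega

end P089.A
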