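
import Mathlib
import Vale.Agent.Lib.P089.Interface
import Vale.Agent.Lib.P089.A.Level2

/-!
# P089, Part A: every position graph has a model
-/

namespace P089.A

variable {S : Type}

/-- the position graph as a family -/
def ofPG (Pg : PG S) : Fam S Pg.P where
  nb := Pg.nb
  symm := Pg.symm
  irr := Pg.irr
  L := Pg.L
  L_nb := Pg.L_nb
  L_pos := Pg.L_pos
  girth := Pg.girth
  sc := Pg.sc
  col := Pg.col

theorem partA : PartA := by
  intro S Pg
  by_cases hP : Nonempty Pg.P
  · obtain ⟨x₀⟩ := hP
    refine ⟨Lim (ofPG Pg) x₀, lact (ofPG Pg) x₀, ⟨?_⟩⟩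
    exact
      { base := lmk (ofPG Pg) x₀ []
        inv := lact_lact (ofPG Pg) x₀
        full := fun v x w y h => by
          have := lfull (ofPG Pg) x₀ (v := v) (w' := []) h (walk_nil _ x)
          exact this
        lev := fun v x => lvl (ofPG Pg) x₀ (cop (ofPG Pg) x₀ v x)
        ctr := fun v x => cen (ofPG Pg) x₀ (cop (ofPG Pg) x₀ v x)
        lev_nb := fun v x s y h => by
          have h' : walk (ofPG Pg).nb x [s] = some y := walk_cons_iff.2 ⟨y, h, rfl⟩
          have := cop_move (ofPG Pg) x₀ (v := v) h'
          exact congrArg (lvl (ofPG Pg) x₀) this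
        ctr_nb := fun v x s y h => by
          have h' : walk (ofPG Pg).nb x [s] = some y := walk_cons_iff.2 ⟨y, h, rfl⟩
          have := cop_move (ofPG Pg) x₀ (v := v) h'
          exact congrArg (cen (ofPG Pg) x₀) this
        lev_base := fun v x y => by
          rw [lvl_base]
          exact Nat.zero_le _
        ctr_conn := fun v x => by
          obtain ⟨u, a, ha, -⟩ := cen_spec (ofPG Pg) x₀ v x
          exact ⟨a.reverse, walk_reverse (ofPG Pg).symm ha⟩
        peel := fun v x y hne h => peel_aux (ofPG Pg) x₀ v x y hne h }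
  · have hS : ∀ s : S, False := fun s => by
      obtain ⟨x, -⟩ := Pg.col s
      exact hP ⟨x⟩
    have hE : ∀ x : Pg.P, False := fun x => hP ⟨x⟩
    exact ⟨Unit, fun v _ => v, ⟨
      { base := ()
        inv := fun v s => rfl
        full := fun v x => (hE x).elim
        lev := fun v x => (hE x).elim
        ctr := fun v x => x
        lev_nb := fun v x => (hE x).elim
        ctr_nb := fun v x => (hE x).elim
        lev_base := fun v x => (hE x).elim
        ctr_conn := fun v x => (hE x).elim
        peel := fun v x => (hE x).elim }⟩⟩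

end P089.A
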